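import Vale.Agent.P280Z.Al.Defs

/-!
# P280Z, block Gz: the square of the invariant class (the statement)
-/

namespace Vale.Agent.P280Z.NS
variable {A B : Type} [CommRing A] [Algebra ℝ A] [CommRing B] [Algebra ℝ B] (S : NS A B)

/-- the push forward of the square of the invariant class -/
def DQ : Prop := S.el (S.aa ^ 2) = S.el S.aa ^ 2 * S.η

end Vale.Agent.P280Z.NS
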