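import Vale.Agent.P280Z.Gz.All
import Vale.Agent.P280Z.Gz.DqD

/-!
# P280Z, block Gz: the square of the invariant class
-/

open scoped Manifold ContDiff Topology
open Set Filter
open Vale.Agent.P272.K Vale.Agent.P285.H281.FD Vale.Agent.P281Z
open Vale.Agent.P280Z.Mp (Eqs)
open Vale.Agent.P280Z.Rh (cX pull_inj)
open Vale.Agent.P280Z.R1.XtH

noncomputable section

namespace Vale.Agent.P280Z.Gz

theorem dq {T : CT} (t : Rh.Th T) {n N r d D k δ : ℕ} {V : Mf n} {P : Eqs r N}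
    {pt : Cm N → V.X} {F : Mp.Fam V P pt d D k} {E : VB F.U.X} (s : Cv.Sit T δ F 1 E) :
    (Cv.nsF T F E).DQ := by
  obtain rfl : k = n := by have := s.dim; omega
  have hT := s.ok
  have fs := En.fs_of s
  have xt := R1.xt T t F E s
  obtain ⟨l1, l2, -⟩ := Ma.lbs F s.hyp
  obtain ⟨c, hc⟩ := Ma.up F s.hyp (Ma.kn F s.hyp)
  have cK := Ma.conn_K F s.cU
  obtain ⟨y⟩ := cK.toNonempty
  obtain ⟨⟨C, i, hi⟩, fi⟩ := Gm.fibi T hT F.p y rfl fs.sp
  obtain ⟨E', hE'⟩ := Ma.rel.ex F.p 1 fs.sp rfl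
  have r1 := (Ma.rel.ps T hT F.e_hol s.rel).2.2 1
  have r2 := (Ma.rel.ps T hT F.p_hol hE').2.2 1
  have r3 := (En.fb hT fs.sp rfl hE' hi).1 0
  have ns := s.ns
  set S := Cv.nsF T F E
  have val : ∀ a (c : ℝ), S.T a = algebraMap ℝ _ c → T.int C (T.pull hi.hol a) = c := fun a c h =>
    fi C i hi a c (sub_eq_zero.1 (pull_inj hT fs.sp rfl (Ma.p_onto F) cK s.kU (by
      rw [map_sub, AlgHom.commutes]
      exact sub_eq_zero.2 h)))
  have cτ : Lc T F.U S.τ := ⟨_, l2, rfl⟩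
  have cE : Lc T F.U (S.pE 1) := (congrArg _ (add_neg_eq_iff_eq_add.2 r1)).mp
    ((lc_cX hT F.U).add hT (((lc_cX hT V).pull hT F.e_hol).neg hT))
  have s1 := ns.ses 1
  rw [pow_one] at s1
  have r4 : T.ps F.U E' 1 = S.τ := add_right_cancel (r2.symm.trans (r1.trans s1))
  have t1 : S.T (-S.pE 1) = algebraMap ℝ _ 1 := by
    have := congrArg S.T s1
    rw [map_add, map_add, ns.c1, map_smul, map_smul, ns.Tη, ns.Tτ, ns.TK] at this
    rw [map_neg, eq_sub_of_add_eq this, map_one, ← Algebra.algebraMap_eq_smul_one, map_add,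
      map_natCast, map_ofNat]
    norm_num
  have vτ := val _ 2 (ns.Tτ.trans (map_ofNat _ 2).symm)
  have vE := val _ 1 t1
  have vh : T.int C (T.pull hi.hol (T.pull F.e_hol S.η)) = 1 :=
    val S.hh 1 (ns.Tη.trans (map_one _).symm)
  obtain ⟨L, hL, eL⟩ := (cE.neg hT).pull hT hi.hol
  obtain ⟨σ, va⟩ := rat hT t.hrr (hi.conn.2 (Cv.CmpH.fib F s.hyp.pos y)) (hi.kah s.kU) hL
    (eL ▸ vE) (by
      rw [cX, r3, zero_add, r4]
      exact vτ)
  obtain ⟨z, hz⟩ := xt.intF 1 0 rfl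
  rw [pow_one, pow_zero, mul_one] at hz
  have ce := Gm.cov T hT t.hrr _ _ _ fs.se fs.cU fs.cX (fs.fa hT)
  obtain ⟨W, q1, q2, dg, G, sG, ca, hG, h1, h2, -, eG⟩ :=
    G2.diag T hT V F.U F.e fs.se fs.cU fun x => (ce x).isPreconnected
  have g1 : ∀ b, T.pull hG.emb.hol (T.pull ca.sf'.hol b) = b := fun b => by
    rw [← hT.rg.pull_comp hG.emb.hol ca.sf'.hol holM_id fun x => (h1 x).symm, hT.rg.pull_id]
  have g2 : ∀ b, T.pull hG.emb.hol (T.pull ca.hg' b) = b := fun b => by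
    rw [← hT.rg.pull_comp hG.emb.hol ca.hg' holM_id fun x => (h2 x).symm, hT.rg.pull_id]
  have dg0 : ∀ b, T.push q1 (T.c1 W G * b) = T.pull hG.emb.hol b := fun b => by
    refine sub_eq_zero.1 (hT.ho.pd F.U s.kU _ fun b' => ?_)
    rw [sub_mul, map_sub, ← hT.pu.proj ca.sf', hT.pu.int ca.sf', mul_assoc, hT.pl hG, map_mul, g1,
      sub_self]
  have bc : ∀ b, T.push q1 (T.pull ca.hg' b) = T.pull F.e_hol (S.el b) := fun b =>
    (hT.pu.bc ca b).symm
  have eE : T.pull hG.emb.hol (T.c1 W G) = S.pE 1 := by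
    rw [hT.ch.tan, hT.ch.tan, map_neg] at r1
    rw [eG]
    change _ = T.ps F.U E 1
    linear_combination r1
  have lA := lb_mul l2 (F.p_hol.lb (lb_pow l1 c))
  have kA := hT.c1.pos _ _ lA hc
  have lW := lb_mul (ca.sf'.hol.lb lA) (ca.hg'.lb lA)
  obtain ⟨B, hB, eB⟩ := (cτ.pull hT ca.hg').add hT (Lc.smul hT (-z) ⟨G, hG.lb, rfl⟩)
  have b2 := sq T hT F.U W C q1 i hi.hol L σ _ B ca.sf' (fun u => Sq.cart_fib ca u (ce _)) va lW
    (hT.kp W _ lW (by
      rw [hT.c1.mul W _ _ (ca.sf'.hol.lb lA) (ca.hg'.lb lA), hT.c1.pull ca.sf'.hol _ lA,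
        hT.c1.pull ca.hg' _ lA]
      exact hT.po.mono (hT.po.add (hT.po.pull ca.sf'.hol kA) (hT.po.pull ca.hg' kA))
        fun z v hv => ca.imm z v hv.1 hv.2)) hB (by
      rw [eB, map_add, map_smul, bc, hz, ← mul_one (T.c1 W G), dg0, map_one, map_intCast,
        ← Algebra.algebraMap_eq_smul_one, map_intCast, Int.cast_neg, add_neg_cancel])
  obtain ⟨x, hx⟩ := ns.b2 (S.el (S.τ * S.τ)) ((ns.el_pr 1 _).trans
    (congrArg _ (ns.gu.dg_mul 1 1 _ _ ns.dτ ns.dτ)))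
  have x0 : x = z ^ 2 + 4 * z := by
    have := congrArg (T.int C) b2
    rw [eB, show ∀ (a g : T.H W) (u : ℝ), (a + u • g) * (a + u • g) =
      a * a + (2 * u) • (g * a) + (u * u) • (g * g) from fun a g u => by algebra, ← map_mul] at this
    simp only [map_add, map_smul, bc, dg0, g2, eE, hx, vh, vτ, smul_eq_mul, map_zero] at this
    rw [map_neg, map_neg, neg_eq_iff_eq_neg] at vE
    rw [vE] at this
    push_cast at this
    linarith
  have e1 : S.el 1 = 0 := Ma.push_one hT fs.se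
  have p1 : ∀ b, S.el (b * S.hh) = S.el b * S.η := fun b => ns.proj b _
  have ea : S.aa = (2 : ℝ) • (1 * S.hh) - S.τ := by
    rw [NS.aa, NS.hc]
    algebra
  have eb : S.aa ^ 2 = (4 : ℝ) • (1 * S.hh * S.hh) - (4 : ℝ) • (S.τ * S.hh) + S.τ * S.τ := by
    rw [ea]
    algebra
  rw [NS.DQ, eb, ea]
  simp only [map_add, map_sub, map_smul, p1, e1, hz, hx, x0]
  algebra

end Vale.Agent.P280Z.Gz
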