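import Vale.Agent.P280Z.Gz.Defs
import Vale.Agent.P280Z.Ld.Defs
import Vale.Agent.P280Z.Ma.Nsx
import Vale.Agent.P281Z.Sc.Bd

/-!
# P280Z, block Gz: line bundles of degree zero on a curve
-/

open scoped Manifold ContDiff Topology
open Set Filter MeasureTheory
open Vale.Agent.P272.K Vale.Agent.P285.H281.FD Vale.Agent.P281Z
open Vale.Agent.P280Z.Ma (kc_add)

noncomputable section

namespace Vale.Agent.P280Z.Gz

namespace Crv

theorem big {T : CT} (hT : T.OK) {n : ℕ} {V : Mf n} {w a : T.H V} (hw : T.Kc V w)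
    (h1 : a ∈ T.Ty V) (h2 : T.Dg V 1 a) : ∃ j₀ : ℕ, ∀ j : ℕ, j₀ ≤ j → T.Kc V ((j : ℝ) • w + a) := by
  obtain ⟨c, -, hc⟩ := hT.po.opn hw a h1 h2
  obtain ⟨j₀, hj⟩ := exists_nat_gt c
  refine ⟨j₀, fun j h => ?_⟩
  have h3 := kc_add hT hc (hT.po.mono (hT.po.smul ((j : ℝ) - c)
    (sub_pos.2 (hj.trans_le (Nat.cast_le.2 h))) hw) fun _ => le_top)
  rwa [sub_smul, add_right_comm, add_sub_cancel] at h3

theorem cut (ld : Ld.LD) {Z : Mf 1} {M : Bd Z.X} (h : IsLB 1 M) (hb : Bpf 1 M) :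
    ∃ (O : Mf 0) (s : M.ι → Z.X → ℂ) (i : O.X → Z.X), Cut M s i := by
  obtain ⟨r, s, h1, h2⟩ := ld.span Z M {s | IsSec 1 M s} h (fun _ k => k) hb
  obtain ⟨c, O, i, k⟩ := (ld.ber (n := 0) Z M (Fin r) s h h1 (h2 ▸ countable_empty)
    fun x hx => absurd (h2 ▸ hx : x ∈ (∅ : Set Z.X)) (notMem_empty x)).exists
  exact ⟨O, _, i, k⟩

theorem deg {T : CT} (hT : T.OK) {Z : Mf 1} {O : Mf 0} {M : Bd Z.X} {s : M.ι → Z.X → ℂ}
    {i : O.X → Z.X} (h : Cut M s i) : T.int Z (T.c1 Z M) = Nat.card O.X := by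
  have := hT.pl h 1
  rwa [mul_one, map_one, hT.rg.int_pt] at this

end Crv

open Crv in
theorem crv_of : Ld.LD → CUT → QUO → PFA → REM → CRV := by
  intro ld hC hQ hP hR T hT Z L hc hL ⟨A, hA, hp⟩ h0
  classical
  obtain ⟨k, r, s, hk, hv⟩ := ld.va Z A hA hp
  have hw : T.Kc Z (T.c1 Z (A.pow k)) := by
    rw [hT.c1.pow Z A k hA]
    exact hT.po.smul _ (Nat.cast_pos.2 hk) (hT.c1.pos Z A hA hp)
  have lK : IsLB 1 (Bd.can 1 Z.X) := P277Z.Slc.isLB_can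
  have ty := fun M => hT.tp.c1 Z M
  have dg : ∀ a b, T.Dg Z 1 a → T.Dg Z 1 b → T.Dg Z 1 (a - b) := fun a b h h' => by
    unfold CT.Dg
    rw [map_sub, h, h']
  have d1 := hT.c1.deg Z
  obtain ⟨j₁, h1⟩ := big hT hw (sub_mem (sub_mem (ty L hL) (ty _ lK)) (ty _ hv.lb))
    (dg _ _ (dg _ _ (d1 _) (d1 _)) (d1 _))
  obtain ⟨j₂, h2⟩ := big hT hw (sub_mem (sub_mem (zero_mem _) (ty _ lK)) (ty _ hv.lb))
    (dg _ _ (dg _ _ (map_zero _) (d1 _)) (d1 _))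
  have lA := lb_pow hv.lb (j₁ + j₂)
  have lM := lb_mul hL lA
  have e1 := hT.c1.pow Z _ (j₁ + j₂) hv.lb
  have e2 := hT.c1.mul Z _ _ hL lA
  obtain ⟨O₁, s₁, i₁, c₁⟩ := cut ld lM (ld.gg T hT Z _ _ _ s hv lM (by
    have := h1 _ (Nat.le_add_right j₁ j₂)
    rw [e2, e1, Nat.cast_one, one_smul, add_comm (T.c1 Z L), add_sub_assoc, add_sub_assoc]
    exact this))
  obtain ⟨O₂, s₂, i₂, c₂⟩ := cut ld lA (ld.gg T hT Z _ _ _ s hv lA (by
    have := h2 _ (Nat.le_add_left j₂ j₁)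
    rw [← add_sub_assoc, ← add_sub_assoc, add_zero] at this
    rw [e1, Nat.cast_one, one_smul]
    exact this))
  have f1 := (ld.pt O₁ _ (c₁.emb.hol.lb lM)).1
  have f2 := (ld.pt O₂ _ (c₂.emb.hol.lb lA)).1
  have e3 : Nat.card O₁.X = Nat.card O₂.X := by
    have := deg hT c₁
    rw [e2, map_add, h0, zero_add, deg hT c₂] at this
    exact (Nat.cast_injective this).symm
  obtain ⟨σ⟩ := Finite.card_eq.1 e3
  have := Fintype.ofFinite O₁.X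
  have := Fintype.ofFinite O₂.X
  have h3 := hQ Z L _ _ _ _ hL lA (hC Z O₁ _ s₁ i₁ c₁) (hC Z O₂ _ s₂ i₂ c₂)
    (hP Z O₁.X i₁ (fun j => i₂ (σ j)) hc)
  rw [σ.sum_comp fun j => (Pi.single (i₂ j) 1 : Z.X → ℤ), sub_add_sub_cancel, sub_self] at h3
  exact hR Z L hL h3

end Vale.Agent.P280Z.Gz
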