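import Vale.Agent.P280Z.Gz.Defs
import Vale.Agent.P280Z.Ma.Rel

/-!
# P280Z, block Gz, row END: two smooth sections without common zero
-/

open scoped Manifold ContDiff Topology Matrix
open Set Filter Function
open Vale.Agent.P272.K Vale.Agent.P285.H281.FD Vale.Agent.P281Z

noncomputable section

namespace Vale.Agent.P280Z.Gz

theorem end_ : END := by
  rintro T hT n V L A B hL ⟨s, hs, hA⟩ ⟨t, ht, hB⟩ hc
  let r : V.X → L.ι := fun x => (hL.cover x).choose
  have hr : ∀ x, x ∈ L.U (r x) := fun x => (hL.cover x).choose_spec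
  have cfr : ∀ a x, cf L a x = L.g (r x) a x := fun a x => dif_pos (hL.cover x)
  let M : L.ι → V.X → Matrix (Fin 1) (Fin 2) ℂ := fun a x => Matrix.of fun _ => ![s a x, t a x]
  let ψ : ∀ x, (VB.triv V.X 2).A x →ₗ[ℂ] (VB.ln L).A x := fun x => Matrix.toLin' (M (r x) x)
  have hψ : ∀ x (c : Fin 2 → ℂ) (i : Fin 1), ψ x c i = s (r x) x * c 0 + t (r x) x * c 1 :=
    fun x c i => Fin.sum_univ_two fun j => ![s (r x) x, t (r x) x] j * c j
  have hom : IsHom n (VB.triv V.X 2) (VB.ln L) ψ := fun x => by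
    refine ⟨(), ((), r x), trivial, ⟨trivial, hr x⟩, M (r x), fun e he i j => ?_, ?_⟩
    · fin_cases j
      · exact hs.sm _ e x he (hr x)
      · exact ht.sm _ e x he (hr x)
    · filter_upwards [(hL.isOpen (r x)).mem_nhds (hr x)] with y hy
      refine LinearMap.ext fun c => funext fun i => (hψ y c i).trans ?_
      rw [hs.chg _ _ y (hr y) hy, ht.chg _ _ y (hr y) hy, ← cfr, mul_assoc, mul_assoc, ← mul_add]
      exact congrArg (cf L (r x) y * ·)
        (Fin.sum_univ_two fun j => ![s (r x) y, t (r x) y] j * c j).symm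
  have sj : ∀ x, Surjective (ψ x) := fun x w => by
    rcases hc x with h | h
    · refine ⟨![(s (r x) x)⁻¹ * w (0 : Fin 1), 0], funext fun i => (hψ x _ i).trans ?_⟩
      rw [Subsingleton.elim (α := Fin 1) i 0]
      simp [mul_inv_cancel_left₀ (hA x h _ (hr x))]
    · refine ⟨![0, (t (r x) x)⁻¹ * w (0 : Fin 1)], funext fun i => (hψ x _ i).trans ?_⟩
      rw [Subsingleton.elim (α := Fin 1) i 0]
      simp [mul_inv_cancel_left₀ (hB x h _ (hr x))]
  obtain ⟨ι, U, b, h⟩ := vbl.ker 1 (vbl.triv V 2) (vbl.tw V _ L (vbl.triv V 1) hL) hom sj rfl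
  have k := fun j => (hT.ch.triv V 2 j).symm.trans (hT.ch.ses V h (j + 1))
  have k1 := Ma.RelH.pow_of (Ma.RelH.nE_spec _) (hT.ch.rank V _ h.v1 _ (Ma.RelH.nE_spec _)) 1
  have p1 := (k 0).trans (congrArg _ (Ma.RelH.ps_ln vbl hT.ch V hL 1))
  have p2 := (k 1).trans (congrArg _ (Ma.RelH.ps_ln vbl hT.ch V hL 2))
  rw [k1, eq_neg_of_add_eq_zero_left p1.symm] at p2
  have : (2 : ℝ) • (T.c1 V L * T.c1 V L) = 0 := by
    rw [two_smul, p2]
    ring
  exact (smul_eq_zero.1 this).resolve_left two_ne_zero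

end Vale.Agent.P280Z.Gz
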