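import Vale.Agent.P280Z.Gz.Defs
import Vale.Agent.P280Z.Ma.UpA

/-!
# P280Z, block Gz: rows OPN and EXT
-/

open scoped Manifold ContDiff Topology
open Set Filter
open Vale.Agent.P272.K Vale.Agent.P285.H281.FD Vale.Agent.P281Z Vale.Agent.P280Z.Ma.Up
open Vale.Agent.P277Z (at_chart)
open Vale.Agent.P277.HD (pull)

noncomputable section

namespace Vale.Agent.P280Z.Gz

namespace ExtH

variable {n k : ℕ} {X Y : Type} [TopologicalSpace X] [ChartedSpace (Cm n) X]
  [IsManifold 𝓘(ℂ, Cm n) ω X] [TopologicalSpace Y] [ChartedSpace (Cm k) Y]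
  [IsManifold 𝓘(ℂ, Cm k) ω Y] {L : Bd X}

theorem sm_at {p : X → Y} {x : X} {e : Chart n X} {c : Chart k Y} (hp : HolA n k p x)
    (he : At e x) (hc : At c (p x)) {u : Y → ℂ}
    (hu : ContDiffAt ℝ ∞ (fun z => u (c.symm z)) (c (p x))) :
    ContDiffAt ℝ ∞ (fun z => u (p (e.symm z))) (e x) := by
  have h2 : (fun z => u (p (e.symm z))) =ᶠ[𝓝 (e x)] fun z => u (c.symm (c (p (e.symm z)))) :=
    (at_map hp.cont he hc).mono fun z hz => by simp only [hz.left_inv]
  have h3 : ContDiffAt ℝ ∞ (fun z => u (c.symm z)) (c (p (e.symm (e x)))) := by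
    rwa [he.left_inv]
  exact (ContDiffAt.comp (g := fun z => u (c.symm z)) (e x) h3
    ((hp.an he hc).contDiffAt.restrict_scalars ℝ)).congr_of_eventuallyEq h2

omit [IsManifold 𝓘(ℂ, Cm n) ω X] in
theorem cont {s : L.ι → X → ℂ} (hs : Ss n L s) {a : L.ι} {x : X} (ha : x ∈ L.U a) :
    ContinuousAt (s a) x := by
  have he := at_chart (n := n) x
  exact ((hs.sm a _ x he ha).continuousAt.comp ((chartAt (Cm n) x).continuousAt he.2)).congr
    ((at_near he).mono fun y hy => congrArg (s a) hy.left_inv)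

theorem sum_sec [T2Space X] [CompactSpace X] (hL : IsLB n L) {ι : Type} (O : ι → Set X)
    (hO : ∀ a, IsOpen (O a)) (hc : ∀ y, ∃ a, y ∈ O a) (j : ι → L.ι) (f : ι → X → ℂ)
    (h0 : ∀ a, O a ⊆ L.U (j a))
    (h1 : ∀ a x (e : Chart n X), x ∈ O a → At e x →
      ContDiffAt ℝ ∞ (fun z => f a (e.symm z)) (e x)) :
    ∃ s, Ss n L s ∧ ∀ i x (c : ℂ), (∀ a, x ∈ O a → L.g i (j a) x * f a x = c) → s i x = c := by
  obtain ⟨s, ρ, r1, -, r3, r4⟩ := pou (n := n) O hO hc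
  refine ⟨fun i x => ∑ y ∈ s, ρ y x • (L.g i (j y) x * f y x),
    ⟨fun i e x he hi => ContDiffAt.sum fun y _ => ?_, fun i i' x hi hi' => ?_⟩,
    fun i x t ht => ?_⟩
  · by_cases hx : x ∈ O y
    · exact (r1 y e x he).smul ((((hL.holo i (j y) e x he hi (h0 y hx)).of_le
        le_top).restrict_scalars ℝ).mul (h1 y x e hx he))
    · refine contDiffAt_const.congr_of_eventuallyEq (f := fun _ => (0 : ℂ))
        ((at_ev he (notMem_tsupport_iff_eventuallyEq.1 fun h => hx (r3 y h))).mono fun z hz => ?_)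
      simp only [hz, Pi.zero_apply, zero_smul]
  · rw [Finset.mul_sum]
    refine Finset.sum_congr rfl fun y _ => ?_
    by_cases hy : ρ y x = 0
    · simp [hy]
    · rw [← hL.cocycle i i' (j y) x hi hi' (h0 y (r3 y (subset_tsupport _ hy))), mul_smul_comm,
        mul_assoc]
  · rw [← one_smul ℝ t, ← r4 x, Finset.sum_smul]
    refine Finset.sum_congr rfl fun y _ => ?_
    by_cases hy : ρ y x = 0
    · simp [hy]
    · rw [ht y (r3 y (subset_tsupport _ hy))]

end ExtH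

open ExtH

/-- row OPN -/
theorem opn : OPN := by
  rintro n V L A hL ⟨s, hs, h⟩
  refine ⟨{x | NZ L s x}, isOpen_iff_eventually.2 fun x hx => ?_, h, s, hs, fun _ k => k⟩
  obtain ⟨a, ha⟩ := hL.cover x
  filter_upwards [(cont hs ha).eventually_ne (hx a ha), (hL.isOpen a).eventually_mem ha] with y
    h1 h2 b hb
  rw [hs.chg b a y hb h2]
  exact mul_ne_zero (hL.ne_zero b a y hb h2) h1

/-- row EXT -/
theorem ext : EXT := by
  rintro n k V Z i S L hL hi ⟨t, ht, hz⟩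
  have h1 : ∀ u : V.X, ∃ (O : Set V.X) (j : L.ι) (f : V.X → ℂ), IsOpen O ∧ u ∈ O ∧ O ⊆ L.U j ∧
      (∀ x (e : Chart n V.X), x ∈ O → At e x → ContDiffAt ℝ ∞ (fun z => f (e.symm z)) (e x)) ∧
      ∀ z, i z ∈ O → f (i z) = t j z := fun u => by
    obtain ⟨j, hj⟩ := hL.cover u
    by_cases hu : u ∈ S
    · obtain ⟨z, rfl⟩ := hi.ex hu
      obtain ⟨g, g1, g2, g3⟩ := (hi.imm z).ret (hi.hol.at z)
      have g4 : ∀ᶠ y in 𝓝 (i z), i (g y) ∈ L.U j :=
        ((hi.hol.at (g (i z))).cmp g2).cont.eventually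
          ((hL.isOpen j).mem_nhds (by simpa only [g1] using hj))
      obtain ⟨O, o1, o2, o3⟩ := eventually_nhds_iff.1 ((((hL.isOpen j).eventually_mem hj).and
        g4).and (g2.near.and (hi.ev.1 g3)))
      exact ⟨O, j, fun y => t j (g y), o2, o3, fun y hy => (o1 y hy).1.1, fun x e hx he =>
        sm_at (o1 x hx).2.1 he (at_chart _) (ht.sm j _ _ (at_chart _) (o1 x hx).1.2),
        fun z hz => congrArg (t j) ((o1 _ hz).2.2 z rfl)⟩
    · exact ⟨L.U j ∩ Sᶜ, j, fun _ => 0, (hL.isOpen j).inter hi.closed.isOpen_compl, ⟨hj, hu⟩,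
        inter_subset_left, fun _ _ _ _ => contDiffAt_const, fun z hz => (hz.2 (hi.mem z)).elim⟩
  choose O j f o1 o2 o3 o4 o5 using h1
  obtain ⟨s, h2, h3⟩ := sum_sec hL O o1 (fun y => ⟨y, o2 y⟩) j f o3 o4
  refine ⟨s, h2, fun x hx a ha => ?_⟩
  obtain ⟨z, rfl⟩ := hi.ex hx
  rw [h3 a _ (t a z) fun u hu => by
    rw [o5 u z hu]
    exact (ht.chg a (j u) z ha (o3 u hu)).symm]
  exact hz z trivial a ha

end Vale.Agent.P280Z.Gz
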