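import Vale.Agent.P280Z.Gz.Defs

/-!
# P280Z, block Gz, row MORSE: no critical values
-/

open scoped Manifold ContDiff Topology
open Set Filter
open Vale.Agent.P272.K Vale.Agent.P285.H281.FD Vale.Agent.P281Z
open Vale.Agent.P277Z (at_chart)

noncomputable section

namespace Vale.Agent.P280Z.Gz

namespace MorseH

variable {n : ℕ} {V : Mf n} {L : Bd V.X} {μ : V.X → ℝ}

theorem mono {A B : Set V.X} (h : Fr n L B) (k : A ⊆ B) : Fr n L A :=
  h.imp fun _ h => ⟨h.1, fun x hx => h.2 x (k hx)⟩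

theorem cont (h : SmoothFn (n := n) μ) : Continuous μ := continuous_iff_continuousAt.2 fun x =>
  have he := at_chart (n := n) x
  ((h _ x he).continuousAt.comp ((chartAt (Cm n) x).continuousAt he.2)).congr
    ((at_near he).mono fun _ hy => congrArg μ hy.left_inv)

theorem cl (hM : MOVE) (hL : IsLB n L) (h : SmoothFn (n := n) μ) {r : ℝ}
    (hr : ∀ x, μ x = r → Reg n μ x) (k : ∀ r' < r, Fr n L {x | μ x ≤ r'}) :
    Fr n L {x | μ x ≤ r} := by
  let Q : Set V.X → Prop := fun s => ∀ C, IsCompact C → (∀ y ∈ C, μ y ≤ r) →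
    (∀ y ∈ C, μ y = r → y ∈ s) → Fr n L C
  have h0 : Q ∅ := fun C c1 c2 c3 => by
    rcases C.eq_empty_or_nonempty with rfl | c
    · exact mono (k (r - 1) (sub_one_lt r)) (empty_subset _)
    · obtain ⟨y, y1, y2⟩ := c1.exists_isMaxOn c (cont h).continuousOn
      exact mono (k _ ((c2 y y1).lt_of_ne (c3 y y1))) y2
  have h1 : ∀ s, Q s → Q (s ∪ {x | μ x = r}) := by
    refine (isClosed_eq (cont h) continuous_const).isCompact.induction_on
      (p := fun t => ∀ s, Q s → Q (s ∪ t)) (fun s hs => (union_empty s).symm ▸ hs)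
      (fun t t' a b s hs C c1 c2 c3 => b s hs C c1 c2 fun y l e => (c3 y l e).imp_right (a ·))
      (fun t t' a b s hs => union_assoc s t t' ▸ b _ (a s hs)) fun x hx => ?_
    obtain ⟨φ, p1, p2, p3, p4⟩ := hM V L μ x hL h (hr x hx)
    refine ⟨_, nhdsWithin_le_nhds p3, fun s hs C c1 c2 c3 => p4 C (hs _ (c1.image p1) ?_ ?_)⟩
    · rintro _ ⟨y, hy, rfl⟩
      exact (p2 y).elim (fun e => e.symm ▸ c2 y hy) fun e => e.le.trans (c2 y hy)
    · rintro _ ⟨y, hy, rfl⟩ e
      have e1 := (p2 y).resolve_right fun l => (l.trans_le (c2 y hy)).ne e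
      rw [e1] at e ⊢
      exact (c3 y hy e).resolve_right fun l => (show μ (φ y) < μ y from l).ne (congrArg μ e1)
  exact h1 _ h0 _ (isClosed_le (cont h) continuous_const).isCompact (fun _ l => l)
    fun _ _ e => .inr e

end MorseH

open MorseH in
/-- **row MORSE** -/
theorem morse_of (hO : OPN) (hM : MOVE) : MORSE := by
  intro n V L μ a c hL h hr h0
  have m : ∀ {r r' : ℝ}, r ≤ r' → Fr n L {x | μ x ≤ r'} → Fr n L {x | μ x ≤ r} := fun k l =>
    mono l fun _ e => le_trans e k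
  rcases le_total c a with k | k
  · exact m k h0
  refine IsClosed.mem_of_ge_of_forall_exists_gt (s := {r | Fr n L {x | μ x ≤ r}})
    (isClosed_of_closure_subset fun r l => ?_) h0 k fun r l => ?_
  · have l1 := closure_minimal inter_subset_right isClosed_Icc l
    refine ⟨l1.1.eq_or_lt.elim (fun e => e ▸ h0) fun e => cl hM hL h
      (fun x hx => hr x (hx ▸ e) (hx ▸ l1.2)) fun r' k' => ?_, l1⟩
    obtain ⟨r₁, a1, a2⟩ := mem_closure_iff.1 l _ isOpen_Ioi k'
    exact m (le_of_lt a1) a2.1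
  · obtain ⟨O, o1, o2, o3⟩ := hO V L _ hL l.1
    rcases Oᶜ.eq_empty_or_nonempty with e | e
    · exact ⟨c, mono o3 fun y _ => (compl_empty_iff.1 e).ge trivial, l.2.2, le_rfl⟩
    obtain ⟨y, y1, y2⟩ := o1.isClosed_compl.isCompact.exists_isMinOn e (cont h).continuousOn
    obtain ⟨r₁, a1, a2⟩ := exists_between (lt_min (not_le.1 fun l' => y1 (o2 l')) l.2.2)
    exact ⟨r₁, mono o3 fun z hz => not_not.1 fun z1 =>
      (a2.trans_le (min_le_left _ _)).not_ge (le_trans (y2 z1) hz), a1,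
      (a2.trans_le (min_le_right _ _)).le⟩

end Vale.Agent.P280Z.Gz
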