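import Vale.Agent.P280Z.Gz.Defs

/-!
# P280Z, block Gz: one local move
-/

open scoped Manifold ContDiff Topology
open Set Filter Metric
open Vale.Agent.P272.K Vale.Agent.P285.H281.FD Vale.Agent.P281Z

noncomputable section

namespace Vale.Agent.P280Z.Gz

namespace MoveH

/-- the move in a vector space -/
theorem flat {E : Type} [NormedAddCommGroup E] [NormedSpace ℝ E] [FiniteDimensional ℝ E]
    {m : E → ℝ} {p : E} (hm : ContDiffAt ℝ ∞ m p) (h : fderiv ℝ m p ≠ 0) {W : Set E}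
    (hW : W ∈ 𝓝 p) : ∃ (r : ℝ) (ψ : E → E), 0 < r ∧ closedBall p (2 * r) ⊆ W ∧ ContDiff ℝ ∞ ψ ∧
      (∀ z ∉ closedBall p r, ψ z = z) ∧ (∀ z ∈ closedBall p r, ψ z ∈ closedBall p (2 * r) ∧
        (ψ z = z ∨ m (ψ z) < m z)) ∧ ∀ᶠ z in 𝓝 p, m (ψ z) < m z := by
  obtain ⟨v, hv⟩ : ∃ v, fderiv ℝ m p v < 0 := by
    obtain ⟨v, hv⟩ := DFunLike.ne_iff.1 h
    rcases lt_or_gt_of_ne hv with k | k
    · exact ⟨v, k⟩
    · exact ⟨-v, by rw [map_neg]; exact neg_neg_of_pos k⟩
  have h1 : ContDiffAt ℝ 1 m p := hm.of_le (by exact_mod_cast le_top)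
  have k1 : ∀ᶠ z in 𝓝 p, fderiv ℝ m z v < 0 :=
    ((h1.continuousAt_fderiv one_ne_zero).clm_apply continuousAt_const).eventually_lt
      continuousAt_const hv
  obtain ⟨R, hR, k⟩ := nhds_basis_closedBall.eventually_iff.1
    ((k1.and (h1.eventually (by simp))).and hW)
  obtain ⟨r, rfl⟩ : ∃ r, R = 2 * r := ⟨R / 2, by ring⟩
  have r0 : 0 < r := by linarith
  let β : ContDiffBump p := ⟨r / 2, r, by linarith, by linarith⟩
  obtain ⟨c, c0, hc⟩ : ∃ c : ℝ, 0 < c ∧ c * ‖v‖ ≤ r :=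
    ⟨r / (‖v‖ + 1), by positivity, by
      rw [div_mul_eq_mul_div, div_le_iff₀ (by positivity)]
      nlinarith⟩
  have mem : ∀ z ∈ closedBall p r, ∀ t ∈ Icc 0 c, z + t • v ∈ closedBall p (2 * r) :=
    fun z hz t ht => by
      rw [mem_closedBall, dist_eq_norm] at hz ⊢
      rw [add_sub_right_comm]
      refine (norm_add_le _ _).trans ?_
      rw [norm_smul, Real.norm_of_nonneg ht.1]
      nlinarith [mul_le_mul_of_nonneg_right ht.2 (norm_nonneg v)]
  have lt : ∀ z ∈ closedBall p r, ∀ t ∈ Ioc 0 c, m (z + t • v) < m z := fun z hz t ht => by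
    have d : ∀ t ∈ Icc 0 c, HasDerivAt (fun t : ℝ => m (z + t • v)) (fderiv ℝ m (z + t • v) v) t :=
      fun t ht => by
        have := ((k (mem z hz t ht)).1.2.differentiableAt one_ne_zero).hasFDerivAt.comp_hasDerivAt t
          (((hasDerivAt_id' t).smul_const v).const_add z)
        rwa [one_smul] at this
    have := strictAntiOn_of_deriv_neg (convex_Icc 0 c)
      (fun t ht => (d t ht).continuousAt.continuousWithinAt) (fun t ht => by
        rw [(d t (interior_subset ht)).deriv]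
        exact (k (mem z hz t (interior_subset ht))).1.1) (left_mem_Icc.2 c0.le) ⟨ht.1.le, ht.2⟩ ht.1
    simpa only [zero_smul, add_zero] using this
  have b1 : ∀ z, c * β z ≤ c := fun z => mul_le_of_le_one_right c0.le β.le_one
  refine ⟨r, fun z => z + (c * β z) • v, r0, fun z hz => (k hz).2,
    contDiff_id.add ((contDiff_const.mul β.contDiff).smul contDiff_const), fun z hz => ?_,
    fun z hz => ⟨mem z hz _ ⟨mul_nonneg c0.le β.nonneg, b1 z⟩, ?_⟩, ?_⟩
  · beta_reduce
    rw [β.zero_of_le_dist (not_le.1 hz).le, mul_zero, zero_smul, add_zero]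
  · rcases (β.nonneg' z).eq_or_lt with h0 | h0
    · left
      beta_reduce
      rw [← h0, mul_zero, zero_smul, add_zero]
    · exact Or.inr (lt z hz _ ⟨mul_pos c0 h0, b1 z⟩)
  · filter_upwards [ball_mem_nhds p r0] with z hz
    exact lt z (ball_subset_closedBall hz) _ ⟨mul_pos c0 (β.pos_of_mem_ball hz), b1 z⟩

end MoveH

open MoveH Classical in
theorem move : MOVE := by
  intro n V L μ x hL hμ ⟨e, he, hr⟩
  obtain ⟨a, ha⟩ := hL.cover x
  obtain ⟨r, ψ, r0, hW, sψ, p1, p2, p3⟩ := flat (hμ e x he) hr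
    (inter_mem (e.open_target.mem_nhds (e.map_source he.2))
      (at_ev he ((hL.isOpen a).mem_nhds ha)))
  have sub : closedBall (e x) r ⊆ closedBall (e x) (2 * r) :=
    closedBall_subset_closedBall (by linarith)
  obtain ⟨K, hK⟩ : ∃ K, K = e.symm '' closedBall (e x) r := ⟨_, rfl⟩
  have cK : IsClosed K := hK ▸ ((isCompact_closedBall _ _).image_of_continuousOn
    (e.continuousOn_symm.mono fun z hz => (hW (sub hz)).1)).isClosed
  have mK : ∀ y ∈ K, At e y ∧ e y ∈ closedBall (e x) r ∧ y ∈ L.U a := by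
    rw [hK]
    rintro _ ⟨z, hz, rfl⟩
    exact ⟨⟨he.1, e.map_target (hW (sub hz)).1⟩, by rwa [e.right_inv (hW (sub hz)).1],
      (hW (sub hz)).2⟩
  have nK : ∀ y, At e y → y ∉ K → e.symm (ψ (e y)) = y := fun y hy k => by
    rw [p1 _ fun k' => k (hK ▸ ⟨_, k', e.left_inv hy.2⟩), e.left_inv hy.2]
  obtain ⟨φ, hφ⟩ : ∃ φ : V.X → V.X, φ = fun y => if y ∈ K then e.symm (ψ (e y)) else y := ⟨_, rfl⟩
  have e1 : ∀ y, At e y → φ y = e.symm (ψ (e y)) := fun y hy => by
    rw [hφ]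
    exact ite_eq_left_iff.2 fun k => (nK y hy k).symm
  have e2 : ∀ y ∉ K, φ y = y := fun y k => by rw [hφ]; exact if_neg k
  have tg : ∀ y ∈ K, ψ (e y) ∈ e.target ∧ e.symm (ψ (e y)) ∈ L.U a := fun y k =>
    hW (p2 _ (mK y k).2.1).1
  refine ⟨φ, continuous_iff_continuousAt.2 fun y => ?_, fun y => ?_, ?_, ?_⟩
  · by_cases k : y ∈ K
    · refine ContinuousAt.congr ?_ ((at_near (mK y k).1).mono fun z hz => (e1 z hz).symm)
      exact (e.continuousAt_symm (tg y k).1).comp (f := fun z => ψ (e z))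
        (sψ.continuous.continuousAt.comp (e.continuousAt (mK y k).1.2))
    · exact continuousAt_id.congr
        (eventually_of_mem (cK.isOpen_compl.mem_nhds k) fun z hz => (e2 z hz).symm)
  · by_cases k : y ∈ K
    · have := (p2 _ (mK y k).2.1).2
      rw [e1 y (mK y k).1]
      rw [e.left_inv (mK y k).1.2] at this
      exact this.imp_left fun h => by rw [h, e.left_inv (mK y k).1.2]
    · exact Or.inl (e2 y k)
  · filter_upwards [(e.continuousAt he.2).eventually p3, at_near he] with y h1 h2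
    rwa [e.left_inv h2.2, ← e1 y h2] at h1
  rintro A ⟨s, hs, nz⟩
  have z0 : ∀ y ∉ K, s a (φ y) - s a y = 0 := fun y k => by rw [e2 y k, sub_self]
  refine ⟨fun b y => s b y + L.g b a y * (s a (φ y) - s a y), ⟨fun b e' y h' hb => ?_,
    fun b c y hb hc => ?_⟩, fun y hy b hb => ?_⟩
  · by_cases k : y ∈ K
    · obtain ⟨k1, -, k3⟩ := mK y k
      refine (hs.sm b e' y h' hb).add ((((hL.holo b a e' y h' hb k3).restrict_scalars ℝ).of_le
        le_top).mul (ContDiffAt.sub ?_ (hs.sm a e' y h' k3)))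
      have t1 : ContDiffAt ℝ ∞ (fun z => ψ (e (e'.symm z))) (e' y) := sψ.contDiffAt.comp _
        (((P277Z.trans_an k1 h').contDiffAt.restrict_scalars ℝ).of_le le_top)
      have t2 := hs.sm a e _ ⟨he.1, e.map_target (tg y k).1⟩ (tg y k).2
      rw [e.right_inv (tg y k).1] at t2
      exact (ContDiffAt.comp (g := fun z => s a (e.symm z)) (e' y)
        (by rwa [e'.left_inv h'.2]) t1).congr_of_eventuallyEq
        ((at_ev h' (at_near k1)).mono fun z hz => congrArg (s a) (e1 _ hz))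
    · refine (hs.sm b e' y h' hb).congr_of_eventuallyEq
        ((at_ev h' (P := (· ∉ K)) (cK.isOpen_compl.mem_nhds k)).mono fun z hz => ?_)
      beta_reduce
      rw [z0 _ hz, mul_zero, add_zero]
  · by_cases k : y ∈ K
    · rw [mul_add, ← mul_assoc, hL.cocycle b c a y hb hc (mK y k).2.2, ← hs.chg b c y hb hc]
    · rw [z0 y k, mul_zero, mul_zero, add_zero, add_zero, hs.chg b c y hb hc]
  · beta_reduce
    by_cases k : y ∈ K
    · rw [hs.chg b a y hb (mK y k).2.2, ← mul_add, add_sub_cancel]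
      exact mul_ne_zero (hL.ne_zero b a y hb (mK y k).2.2)
        (nz _ ⟨y, hy, rfl⟩ a (e1 y (mK y k).1 ▸ (tg y k).2))
    · rw [z0 y k, mul_zero, add_zero]
      exact nz _ ⟨y, hy, e2 y k⟩ b hb

end Vale.Agent.P280Z.Gz
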