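import Vale.Agent.P280Z.Gz.Defs

/-!
# P280Z, block Gz, rows MU and UP: the height function on the projective line
-/

open scoped Manifold ContDiff Topology ComplexConjugate
open Set Filter
open Vale.Agent.P272.K Vale.Agent.P285.H281.FD Vale.Agent.P281Z
open Vale.Agent.P277Z (Hol at_chart)
open Vale.Agent.P277Z.Slc (dd)
open Vale.Agent.P280Z.Ld (Va)

noncomputable section

namespace Vale.Agent.P280Z.Gz

namespace MuH

theorem core {n : ℕ} {p q : Cm n → ℂ} {μ : Cm n → ℝ} {z : Cm n} {p' q' : Cm n →L[ℂ] ℂ}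
    (hp : HasFDerivAt p p' z) (hq : HasFDerivAt q q' z) (hμ : HasFDerivAt (𝕜 := ℝ) μ 0 z)
    (h : ∀ᶠ y in 𝓝 z, ‖q y‖ ^ 2 = μ y * (‖p y‖ ^ 2 + ‖q y‖ ^ 2)) (p0 : p z ≠ 0) (q0 : q z ≠ 0)
    (v : Cm n) : p' v * q z = q' v * p z := by
  have k1 := (hp.restrictScalars ℝ).norm_sq
  have k2 := (hq.restrictScalars ℝ).norm_sq
  have k := k2.unique ((hμ.mul (k1.add k2)).congr_of_eventuallyEq h)
  have h0 := h.self_of_nhds
  have k3 : ∀ c : ℂ, (c * (conj (p z) * conj (q z) * (p' v * q z - q' v * p z))).re = 0 := by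
    intro c
    have k4 := DFunLike.congr_fun k (c • v)
    simp only [_root_.smul_apply, _root_.add_apply,
      ContinuousLinearMap.comp_apply, innerSL_apply_apply, Complex.inner, map_smul,
      ContinuousLinearMap.coe_restrictScalars', smul_zero, add_zero, smul_eq_mul, nsmul_eq_mul,
      Pi.add_apply] at k4
    have e : c * (conj (p z) * conj (q z) * (p' v * q z - q' v * p z)) =
        ((‖q z‖ ^ 2 : ℝ) : ℂ) * (c * p' v * conj (p z)) -
          ((‖p z‖ ^ 2 : ℝ) : ℂ) * (c * q' v * conj (q z)) := by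
      push_cast
      rw [← Complex.mul_conj', ← Complex.mul_conj']
      ring
    rw [e, Complex.sub_re, Complex.re_ofReal_mul, Complex.re_ofReal_mul]
    push_cast at k4
    linear_combination ((c * p' v * conj (p z)).re + (c * q' v * conj (q z)).re) * h0 -
      (‖p z‖ ^ 2 + ‖q z‖ ^ 2) / 2 * k4
  have k5 := k3 (conj (conj (p z) * conj (q z) * (p' v * q z - q' v * p z)))
  rw [Complex.conj_mul', ← Complex.ofReal_pow, Complex.ofReal_re, pow_eq_zero_iff two_ne_zero,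
    norm_eq_zero] at k5
  exact sub_eq_zero.1 ((mul_eq_zero.1 k5).resolve_left
    (mul_ne_zero ((map_ne_zero _).2 p0) ((map_ne_zero _).2 q0)))

end MuH

theorem mu : MU := by
  intro Z L s va
  choose a ha using va.lb.cover
  have hD : ∀ {b z}, z ∈ L.U b → 0 < ‖s 0 b z‖ ^ 2 + ‖s 1 b z‖ ^ 2 := fun {b z} hb => by
    obtain ⟨j, hj⟩ := not_forall_not.1 (eq_empty_iff_forall_notMem.1 va.bpf z)
    have k := hj b hb
    fin_cases j
    · exact add_pos_of_pos_of_nonneg (pow_pos (norm_pos_iff.2 k) 2) (sq_nonneg _)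
    · exact add_pos_of_nonneg_of_pos (sq_nonneg _) (pow_pos (norm_pos_iff.2 k) 2)
  obtain ⟨μ, loc⟩ : ∃ μ : Z.X → ℝ, ∀ {b z}, z ∈ L.U b →
      μ z = ‖s 1 b z‖ ^ 2 / (‖s 0 b z‖ ^ 2 + ‖s 1 b z‖ ^ 2) :=
    ⟨fun z => ‖s 1 (a z) z‖ ^ 2 / (‖s 0 (a z) z‖ ^ 2 + ‖s 1 (a z) z‖ ^ 2), fun {b z} hb => by
      beta_reduce
      rw [(va.sec 0).1.change _ b z (ha z) hb, (va.sec 1).1.change _ b z (ha z) hb, norm_mul,
        norm_mul, mul_pow, mul_pow, ← mul_add, mul_div_mul_left _ _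
          (pow_ne_zero 2 (norm_ne_zero_iff.2 (va.lb.ne_zero _ _ z (ha z) hb)))]⟩
  have z0 : ∀ z, μ z = 0 ↔ s 1 (a z) z = 0 := fun z => by
    rw [loc (ha z), div_eq_zero_iff, or_iff_left (hD (ha z)).ne', pow_eq_zero_iff two_ne_zero,
      norm_eq_zero]
  have z1 : ∀ z, μ z = 1 ↔ s 0 (a z) z = 0 := fun z => by
    rw [loc (ha z), div_eq_one_iff_eq (hD (ha z)).ne', right_eq_add, pow_eq_zero_iff two_ne_zero,
      norm_eq_zero]
  have sm : SmoothFn (n := 1) μ := fun e x he => by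
    have k : ∀ j, ContDiffAt ℝ ∞ (fun z => ‖s j (a x) (e.symm z)‖ ^ 2) (e x) := fun j =>
      ((((va.sec j).1.holo _ e x he (ha x)).of_le le_top).restrict_scalars ℝ).norm_sq ℝ
    refine ((k 1).div ((k 0).add (k 1)) ?_).congr_of_eventuallyEq
      ((at_ev he (lb_near va.lb (ha x))).mono fun z hz => loc hz)
    rw [e.left_inv he.2]
    exact (hD (ha x)).ne'
  refine ⟨μ, sm, fun z => ?_, fun x hx y hy => va.pts x y _ _ (ha x) (ha y) ?_,
    fun x hx y hy => va.pts x y _ _ (ha x) (ha y) ?_, fun z h0 h1 => ?_⟩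
  · rw [loc (ha z)]
    exact ⟨div_nonneg (sq_nonneg _) (hD (ha z)).le,
      (div_le_one (hD (ha z))).2 (le_add_of_nonneg_left (sq_nonneg _))⟩
  · simp [Fin.forall_fin_two, (z0 x).1 hx, (z0 y).1 hy]
  · simp [Fin.forall_fin_two, (z1 x).1 hx, (z1 y).1 hy]
  · have he := at_chart (n := 1) z
    refine ⟨_, he, fun h => ?_⟩
    have k := MuH.core (sec_hol (va.sec 0).1 (ha z) _ he).differentiableAt.hasFDerivAt
      (sec_hol (va.sec 1).1 (ha z) _ he).differentiableAt.hasFDerivAt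
      (h ▸ ((sm _ z he).differentiableAt (by simp)).hasFDerivAt)
      ((at_ev he (lb_near va.lb (ha z))).mono fun y hy => by
        rw [loc hy, div_mul_cancel₀ _ (hD hy).ne'])
      (by rw [he.left_inv]; exact mt (z1 z).2 h1.ne) (by rw [he.left_inv]; exact mt (z0 z).2 h0.ne')
      fun _ => 1
    rw [he.left_inv] at k
    exact one_ne_zero (congrFun (va.tan z (a z) _ (fun _ => 1) (ha z) he
      (Fin.forall_fin_two.2 ⟨Fin.forall_fin_two.2 ⟨rfl, k⟩, Fin.forall_fin_two.2 ⟨k.symm, rfl⟩⟩)) 0)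

theorem up : UP := by
  intro n k V Z f μ hf hμ
  have h0 : ∀ {x} {e : Chart n V.X} {e' : Chart k Z.X}, At e x → At e' (f x) →
      (fun z => μ (f (e.symm z))) =ᶠ[𝓝 (e x)]
        (fun z => μ (e'.symm z)) ∘ fun z => e' (f (e.symm z)) := fun {x} e e' he he' => by
    filter_upwards [at_map (hf.hol.at x).cont he he'] with z hz
    exact congrArg μ hz.left_inv.symm
  refine ⟨fun e x he => ?_, fun x ⟨e', he', h⟩ => ⟨_, at_chart x, fun h1 => h ?_⟩⟩
  · have he' := at_chart (n := k) (f x)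
    refine (ContDiffAt.comp _ ?_ (((hf.hol.at x).an he he').contDiffAt.restrict_scalars
      ℝ)).congr_of_eventuallyEq (h0 he he')
    rw [he.left_inv]
    exact hμ _ _ he'
  · have he := at_chart (n := n) x
    have k1 := ((hf.hol.at x).an he he').differentiableAt.hasFDerivAt.restrictScalars ℝ
    have k2 := ((hμ _ _ he').differentiableAt (by simp)).hasFDerivAt
    rw [(h0 he he').fderiv_eq, (HasFDerivAt.comp _ (by rw [he.left_inv]; exact k2) k1).fderiv] at h1
    ext1 v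
    obtain ⟨w, rfl⟩ := hf.sbm x _ _ he he' v
    exact DFunLike.congr_fun h1 w

end Vale.Agent.P280Z.Gz
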