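import Vale.Agent.P280Z.Gz.Defs

/-!
# P280Z, block Gz: row OD, the rules for orders
-/

open scoped Manifold ContDiff Topology
open Set Filter
open Vale.Agent.P272.K Vale.Agent.P285.H281.FD Vale.Agent.P281Z
open Vale.Agent.P277Z (Hol)
open Vale.Agent.P277Z.Slc (dd)

noncomputable section

namespace Vale.Agent.P280Z.Gz

namespace OdH
variable {Z : Mf 1} {x : Z.X} {e : Chart 1 Z.X}

theorem ext1 {z w : Cm 1} (h : z 0 = w 0) : z = w :=
  funext fun i => by rwa [Subsingleton.elim i 0]

theorem ne (he : At e x) : ∀ᶠ y in 𝓝[≠] x, e y 0 - e x 0 ≠ 0 := by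
  filter_upwards [self_mem_nhdsWithin, mem_nhdsWithin_of_mem_nhds (at_near he)] with y hy hy' h
  exact hy (e.injOn hy'.2 he.2 (ext1 (sub_eq_zero.1 h)))

theorem nb (x : Z.X) : (𝓝[≠] x).NeBot := by
  have he := P277Z.Slc.at_chartAt (n := 1) x
  set e := chartAt (Cm 1) x
  have := Module.punctured_nhds_neBot ℂ (Cm 1) (e x)
  refine Tendsto.neBot (f := e.symm) (x := 𝓝[≠] (e x)) (tendsto_nhdsWithin_iff.2
    ⟨(P277Z.Slc.tendsto_symm he).mono_left nhdsWithin_le_nhds, ?_⟩)
  filter_upwards [self_mem_nhdsWithin,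
    mem_nhdsWithin_of_mem_nhds (e.open_target.mem_nhds (e.map_source he.2))] with z hz hz' h
  exact hz (by rw [← e.right_inv hz', mem_singleton_iff.1 h]; rfl)

theorem cont {u : Z.X → ℂ} (he : At e x) (h : ContDiffAt ℝ ∞ (fun z => u (e.symm z)) (e x)) :
    ContinuousAt u x := by
  refine (h.continuousAt.comp (e.continuousAt he.2)).congr ?_
  filter_upwards [at_near he] with y hy
  exact congrArg u (e.left_inv hy.2)

theorem one {f : Z.X → ℂ} (he : At e x) (hf : Hol 1 f x) (h0 : f x = 0) (hd : dd f e x ≠ 0) :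
    ∃ u : Z.X → ℂ, ContDiffAt ℝ ∞ (fun z => u (e.symm z)) (e x) ∧ u x ≠ 0 ∧
      ∀ᶠ y in 𝓝[≠] x, f y = u y * (e y 0 - e x 0) ^ (1 : ℤ) := by
  have c : ∀ z : Cm 1, (fun _ => z 0) = z := fun z => ext1 rfl
  have hg : AnalyticAt ℂ (fun t : ℂ => f (e.symm fun _ => t)) (e x 0) :=
    (hf e he).comp_of_eq (analyticAt_pi_iff.2 fun _ => analyticAt_id) (c _)
  set g := fun t : ℂ => f (e.symm fun _ => t) with gd
  have p0 : AnalyticAt ℂ (fun z : Cm 1 => z 0) (e x) := analyticAt_pi_iff.1 analyticAt_id 0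
  obtain ⟨p, hp⟩ := id hg
  refine ⟨fun y => dslope g (e x 0) (e y 0), ?_, fun h => hd ?_, ?_⟩
  · refine (((hp.has_fpower_series_dslope_fslope.analyticAt.comp_of_eq p0 rfl).contDiffAt
      (n := ∞)).restrict_scalars ℝ).congr_of_eventuallyEq ?_
    filter_upwards [e.open_target.mem_nhds (e.map_source he.2)] with z hz
    rw [e.right_inv hz]
    rfl
  · have k : (fun z : Cm 1 => f (e.symm z)) = g ∘ fun z : Cm 1 => z 0 :=
      funext fun z => by rw [Function.comp_apply, gd]; simp only [c]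
    simp only [dslope_same] at h
    have d := hg.differentiableAt.hasDerivAt
    rw [h] at d
    rw [dd, k, (HasDerivAt.comp_hasFDerivAt (f := fun z : Cm 1 => z 0) (e x) d
      p0.differentiableAt.hasFDerivAt).fderiv]
    ext
    simp
  · filter_upwards [mem_nhdsWithin_of_mem_nhds (at_near he)] with y hy
    rw [zpow_one, mul_comm, ← smul_eq_mul, sub_smul_dslope, gd]
    simp only [c, e.left_inv hy.2, e.left_inv he.2, h0, sub_zero]

end OdH

open OdH in
/-- **row OD** -/
theorem od : OD where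
  cng := fun h k e he => by
    obtain ⟨u, h1, h2, h3⟩ := h e he
    refine ⟨u, h1, h2, ?_⟩
    filter_upwards [h3, k] with y a b
    rw [← b, a]
  mul := fun h k e he => by
    obtain ⟨u, h1, h2, h3⟩ := h e he
    obtain ⟨v, k1, k2, k3⟩ := k e he
    refine ⟨fun y => u y * v y, h1.mul k1, mul_ne_zero h2 k2, ?_⟩
    filter_upwards [h3, k3, ne he] with y a b c
    rw [a, b, zpow_add₀ c]
    ring
  inv := fun h e he => by
    obtain ⟨u, h1, h2, h3⟩ := h e he
    refine ⟨fun y => (u y)⁻¹, h1.inv (by rwa [e.left_inv he.2]), inv_ne_zero h2, ?_⟩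
    filter_upwards [h3] with y a
    rw [a, mul_inv, zpow_neg]
  unit := fun {_ f x e} he h h0 e' he' => by
    refine ⟨f, ?_, h0, Eventually.of_forall fun y => by rw [zpow_zero, mul_one]⟩
    have k := ((P277Z.trans_an he he').contDiffAt (n := ∞)).restrict_scalars ℝ
    refine (ContDiffAt.comp (e' x) (g := fun z => f (e.symm z))
      (by rwa [e'.left_inv he'.2]) k).congr_of_eventuallyEq ?_
    filter_upwards [at_ev he' (at_near he)] with z hz
    rw [Function.comp_apply, e.left_inv hz.2]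
  one := fun he hf h0 hd e' he' => one he' hf h0 fun h => hd (by
    rw [P277Z.Slc.dd_chart hf he' he, h, ContinuousLinearMap.zero_comp])
  nz := fun {_ f x m} h => by
    have he := P277Z.Slc.at_chartAt (n := 1) x
    obtain ⟨u, h1, h2, h3⟩ := h _ he
    filter_upwards [h3, ne he, mem_nhdsWithin_of_mem_nhds ((cont he h1).eventually_ne h2)]
      with y a b c
    rw [a]
    exact mul_ne_zero c (zpow_ne_zero _ b)
  nb := nb

end Vale.Agent.P280Z.Gz
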