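import Vale.Agent.P280Z.Gz.Defs
import Vale.Agent.P281Z.Gr.Api

/-!
# P280Z, block Gz: smooth functions with prescribed zeros and poles on a curve
-/

open scoped Manifold ContDiff Topology
open Set Filter
open Vale.Agent.P272.K Vale.Agent.P285.H281.FD Vale.Agent.P281Z
open Vale.Agent.P277Z (Hol)
open Vale.Agent.P277Z.Slc (at_chartAt tendsto_symm)

noncomputable section

namespace Vale.Agent.P280Z.Gz

namespace PfH

variable {V : Mf 1}

/-- the coordinate of the chart `e` centred at `x` -/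
def co (e : Chart 1 V.X) (x y : V.X) : ℂ := e y 0 - e x 0

theorem co_eq {e : Chart 1 V.X} {x y : V.X} (hx : At e x) (hy : At e y) : co e x y = 0 ↔ y = x :=
  ⟨fun k => e.injOn hy.2 hx.2 (funext fun j => by
    rw [Subsingleton.elim j 0]; exact sub_eq_zero.1 k), fun k => by rw [k, co, sub_self]⟩

theorem co_near {e : Chart 1 V.X} {y : V.X} (hy : At e y) (x : V.X) :
    ∀ᶠ z in 𝓝 (e y), co e x (e.symm z) = z 0 - e x 0 :=
  (e.eventually_right_inverse (e.map_source hy.2)).mono fun z k => by rw [co, k]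

theorem co_hol {e : Chart 1 V.X} {y : V.X} (hy : At e y) (x : V.X) : Hol 1 (co e x) y :=
  Hol.of_chart hy (((ContinuousLinearMap.proj (R := ℂ) (φ := fun _ : Fin 1 => ℂ) 0).analyticAt
    _).sub analyticAt_const |>.congr ((co_near hy x).mono fun _ k => k.symm))

theorem co_od (o : OD) {e : Chart 1 V.X} {x : V.X} (hx : At e x) : Od (co e x) x 1 := by
  refine o.one hx (co_hol hx x) (sub_self _) fun k => ?_
  have h : HasFDerivAt (fun z : Cm 1 => z 0 - e x 0)
      (ContinuousLinearMap.proj (R := ℂ) (φ := fun _ : Fin 1 => ℂ) 0) (e x) :=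
    (ContinuousLinearMap.proj (R := ℂ) (φ := fun _ : Fin 1 => ℂ) 0).hasFDerivAt.sub_const _
  have := congrArg (fun f => f fun _ => 1)
    ((h.congr_of_eventuallyEq (co_near hx x)).fderiv.symm.trans k)
  simp at this

theorem zero (o : OD) {h : V.X → ℂ} {x : V.X} (a : Gr.SmAt 1 h x) (b : h x ≠ 0) : Od h x 0 :=
  o.unit (at_chartAt x) (a _ (at_chartAt x)) b

/-- the divisors of smooth functions -/
def P (o : OD) (V : Mf 1) : AddSubgroup (V.X → ℤ) where
  carrier := {ν | Pf ν}
  zero_mem' := ⟨fun _ => 1, fun x => zero o (Gr.smAt_const 1 x) one_ne_zero⟩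
  add_mem' := fun ⟨_, a⟩ ⟨_, b⟩ => ⟨_, fun x => o.mul (a x) (b x)⟩
  neg_mem' := fun ⟨_, a⟩ => ⟨_, fun x => o.inv (a x)⟩

end PfH

open PfH in
/-- **row PF1** -/
theorem pf1_of (o : OD) : PF1 := by
  intro V _ p
  obtain ⟨e, he⟩ : ∃ e, At e p := ⟨_, at_chartAt (n := 1) p⟩
  obtain ⟨ρ, r1, r2, r3⟩ := Gr.exists_bump 1 (isCompact_singleton (x := p)) e.open_source
    (singleton_subset_iff.2 he.2)
  obtain ⟨C, hC⟩ := isCompact_univ.exists_bound_of_continuousOn r1.cont.continuousOn
  obtain ⟨δ, d0, hδ⟩ := Metric.eventually_nhds_iff.1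
    ((tendsto_symm he).eventually (r2 p rfl).eventually_nhds)
  have C0 : 0 < |C| + 1 := by positivity
  have hc : ContinuousAt (co e p) p := (co_hol he p).continuousAt'
  have h0 : co e p p = 0 := sub_self _
  filter_upwards [P277Z.Slc.At.near he, (r2 p rfl).eventually_nhds,
    hc.norm.eventually_lt_const (show ‖co e p p‖ < δ / (|C| + 1) by rw [h0, norm_zero]; positivity)]
    with q hq q1 q2
  by_cases hpq : q = p
  · rw [hpq, sub_self]; exact zero_mem (P o V)
  have one : ∀ x, At e x → (∀ᶠ y in 𝓝 x, ρ y = 1) → ∀ᶠ y in 𝓝[≠] x,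
      co e q y * (co e p y)⁻¹ = 1 - ρ y * co e p q * (co e p y)⁻¹ := fun x hx k => by
    have : ∀ᶠ y in 𝓝[≠] x, y ≠ p := by
      by_cases h : x = p
      · exact h ▸ self_mem_nhdsWithin
      · exact nhdsWithin_le_nhds (isOpen_ne.mem_nhds h)
    filter_upwards [nhdsWithin_le_nhds k, nhdsWithin_le_nhds (P277Z.Slc.At.near hx), this]
      with y k1 k2 k3
    have := mt (co_eq he k2).1 k3
    rw [k1]
    field_simp
    simp only [co]
    ring
  have sm : ∀ x y, At e x → At e y → y ≠ x → Od (co e x) y 0 := fun x y hx hy k =>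
    zero o (Gr.smAt_of_hol (co_hol hy x)) (mt (co_eq hx hy).1 k)
  refine ⟨fun y => 1 - ρ y * co e p q * (co e p y)⁻¹, fun x => ?_⟩
  rw [Pi.sub_apply]
  by_cases hp : x = p
  · subst hp
    rw [Pi.single_eq_same, Pi.single_eq_of_ne (Ne.symm hpq), sub_eq_add_neg]
    exact o.cng (o.mul (sm q x hq he (Ne.symm hpq)) (o.inv (co_od o he))) (one x he (r2 x rfl))
  by_cases hx : x = q
  · subst hx
    rw [Pi.single_eq_same, Pi.single_eq_of_ne hp, sub_eq_add_neg]
    exact o.cng (o.mul (co_od o hq) (o.inv (sm p x he hq hp))) (one x hq q1)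
  rw [Pi.single_eq_of_ne hp, Pi.single_eq_of_ne hx]
  by_cases ht : x ∈ tsupport ρ
  swap
  · exact o.cng (zero o (Gr.smAt_const 1 x) one_ne_zero) (nhdsWithin_le_nhds
      ((notMem_tsupport_iff_eventuallyEq.1 ht).mono fun y k => by simp [k]))
  have ha : At e x := ⟨he.1, r3 ht⟩
  by_cases h1 : ∀ᶠ y in 𝓝 x, ρ y = 1
  · exact o.cng (o.mul (sm q x hq ha hx) (o.inv (sm p x he ha hp))) (one x ha h1)
  have hn := mt (co_eq he ha).1 hp
  refine zero o ((Gr.smAt_const 1 x).sub (((r1.at x).mul (Gr.smAt_const _ x)).mul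
    ((Gr.smAt_of_hol (co_hol ha p)).inv hn))) fun k => h1 ?_
  have h2 : co e p x = ρ x * co e p q := by
    field_simp at k
    linear_combination k
  have h3 : dist (e x) (e p) < δ := by
    rw [dist_pi_lt_iff d0]
    intro j
    rw [Subsingleton.elim j 0, dist_eq_norm]
    change ‖co e p x‖ < δ
    rw [h2, norm_mul]
    have := hC x (mem_univ x)
    have := le_abs_self C
    have := norm_nonneg (co e p q)
    rw [lt_div_iff₀ C0] at q2
    nlinarith
  simpa only [e.left_inv ha.2] using hδ h3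

open PfH in
/-- **row PFA** -/
theorem pfa_of (o : OD) (h : PF1) : PFA := by
  intro V _ α _ x y _
  have g : ∀ p q : V.X, Pi.single q 1 - Pi.single p 1 ∈ P o V :=
    PreconnectedSpace.induction₂' (fun p q => Pi.single q 1 - Pi.single p 1 ∈ P o V)
      (fun p => (h V p).mono fun q a => ⟨a, by simpa using neg_mem (G := V.X → ℤ) (s := P o V) a⟩)
      ⟨fun _ _ _ a b => by simpa using add_mem b a⟩
  rw [← Finset.sum_sub_distrib]
  exact sum_mem (S := P o V) fun j _ => g _ _

end Vale.Agent.P280Z.Gz
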