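import Vale.Agent.P280Z.Gz.Defs
import Vale.Agent.P280Z.Ld.Api

/-!
# P280Z, block Gz: removable singularities, simple zeros, quotients (rows REM, CUT, QUO)
-/

open scoped Manifold ContDiff Topology
open Set Filter
open Vale.Agent.P272.K Vale.Agent.P285.H281.FD Vale.Agent.P281Z
open Vale.Agent.P277Z (Hol at_chart)

noncomputable section

namespace Vale.Agent.P280Z.Gz

namespace RemH

theorem lim_eq {X : Type} [TopologicalSpace X] [T1Space X] (nb : ∀ y : X, (𝓝[≠] y).NeBot)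
    {f u : X → ℂ} {x : X} (hu : ∀ᶠ y in 𝓝 x, ContinuousAt u y) (h : ∀ᶠ y in 𝓝[≠] x, f y = u y) :
    ∀ᶠ y in 𝓝 x, limUnder (𝓝[≠] y) f = u y := by
  filter_upwards [hu, (eventually_nhdsWithin_iff.1 h).eventually_nhds] with y h1 h2
  have := nb y
  refine ((h1.tendsto.mono_left nhdsWithin_le_nhds).congr' ?_).limUnder_eq
  filter_upwards [h2.filter_mono nhdsWithin_le_nhds,
    (eventually_cofinite_ne x).filter_mono (nhdsNE_le_cofinite y)] with z k1 k2 using (k1 k2).symm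

theorem cont_near {n : ℕ} {X : Type} [TopologicalSpace X] [ChartedSpace (Cm n) X] {u : X → ℂ}
    {x : X} {e : Chart n X} (he : At e x) (h : ContDiffAt ℝ ∞ (fun z => u (e.symm z)) (e x)) :
    ∀ᶠ y in 𝓝 x, ContinuousAt u y := by
  filter_upwards [(e.continuousAt he.2).eventually
    ((h.of_le (m := 0) zero_le).eventually (by simp)), at_near he] with y h1 h2
  exact (h1.continuousAt.comp (e.continuousAt h2.2)).congr
    ((P277Z.At.left h2).mono fun z k => congrArg u k)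

theorem sm {n : ℕ} {X : Type} [TopologicalSpace X] [ChartedSpace (Cm n) X] {u : X → ℂ}
    {x : X} {e : Chart n X} (he : At e x) (h : Hol n u x) :
    ContDiffAt ℝ ∞ (fun z => u (e.symm z)) (e x) :=
  ((h e he).contDiffAt (n := ∞)).restrict_scalars ℝ

end RemH

open RemH

/-- **row REM** -/
theorem rem_of (h : OD) : REM := by
  intro Z L hL ⟨s, h1, h2⟩
  have key : ∀ a x e, At e x → x ∈ L.U a → ∃ u : Z.X → ℂ,
      ContDiffAt ℝ ∞ (fun z => u (e.symm z)) (e x) ∧ u x ≠ 0 ∧ (∀ᶠ y in 𝓝[≠] x, s a y = u y) ∧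
        ∀ᶠ y in 𝓝 x, limUnder (𝓝[≠] y) (s a) = u y := fun a x e he ha => by
    obtain ⟨u, k1, k2, k3⟩ := h2 a x ha e he
    have k4 : ∀ᶠ y in 𝓝[≠] x, s a y = u y := k3.mono fun y k => by
      rw [k, Pi.zero_apply, zpow_zero, mul_one]
    exact ⟨u, k1, k2, k4, lim_eq h.nb (cont_near he k1) k4⟩
  refine ⟨fun a y => limUnder (𝓝[≠] y) (s a), ⟨fun a e x he ha => ?_, fun a b x ha hb => ?_⟩,
    fun x _ a ha => ?_⟩
  · obtain ⟨u, k1, -, -, k2⟩ := key a x e he ha
    exact k1.congr_of_eventuallyEq (at_ev he k2)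
  · obtain ⟨u, k1, -, k2, k3⟩ := key b x _ (at_chart x) hb
    rw [k3.self_of_nhds]
    refine (lim_eq (u := fun y => L.g a b y * u y) h.nb ?_ ?_).self_of_nhds
    · filter_upwards [cont_near (at_chart x) k1, lb_near hL ha, lb_near hL hb] with y l1 l2 l3
        using (lb_hol hL l2 l3).cont.mul l1
    · filter_upwards [k2, (lb_near hL ha).filter_mono nhdsWithin_le_nhds,
        (lb_near hL hb).filter_mono nhdsWithin_le_nhds] with y l1 l2 l3
      rw [h1 a b y l2 l3, l1]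
  · obtain ⟨u, -, k1, -, k2⟩ := key a x _ (at_chart x) ha
    exact fun k => k1 (k2.self_of_nhds.symm.trans k)

/-- **row CUT** -/
theorem cut_of (h : OD) : CUT := by
  intro Z _ O _ L s i hc
  refine ⟨s, hc.sec.change, fun a x ha => ?_⟩
  rw [Finset.sum_apply]
  by_cases k : x ∈ range i
  · obtain ⟨j, rfl⟩ := k
    rw [Finset.sum_eq_single j (fun l _ k => Pi.single_eq_of_ne (hc.emb.inj.ne k.symm) _)
      fun k => absurd (Finset.mem_univ j) k, Pi.single_eq_same]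
    exact h.one (at_chart _) (sec_hol hc.sec ha)
      ((Ld.not_nz hc.lb hc.sec ha).1 (hc.emb.rng.le ⟨j, rfl⟩)) (hc.tr j a ha _ (at_chart _))
  · rw [Finset.sum_eq_zero fun j _ => Pi.single_eq_of_ne (fun e => k ⟨j, e.symm⟩) _]
    exact h.unit (at_chart _) (sm (at_chart _) (sec_hol hc.sec ha))
      fun e => k (hc.emb.rng.ge ((Ld.not_nz hc.lb hc.sec ha).2 e))

/-- **row QUO** -/
theorem quo_of (h : OD) : QUO := by
  intro Z L A D D' D'' hL hA ⟨s, h1, h2⟩ ⟨t, k1, k2⟩ ⟨f, hf⟩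
  choose b hb using hA.cover
  refine ⟨fun a y => s (a, b y) y * (t (b y) y)⁻¹ * f y, fun a a' y ha ha' => ?_, fun a x ha => ?_⟩
  · dsimp only
    rw [h1 (a, b y) (a', b y) y ⟨ha, hb y⟩ ⟨ha', hb y⟩]
    show L.g a a' y * A.g (b y) (b y) y * _ * _ * _ = _
    rw [lb_self hA (hb y), mul_one, mul_assoc, mul_assoc, mul_assoc]
  · rw [Pi.add_apply, Pi.sub_apply, sub_eq_add_neg]
    refine h.cng (h.mul (h.mul (h2 (a, b x) x ⟨ha, hb x⟩) (h.inv (k2 (b x) x (hb x)))) (hf x)) ?_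
    filter_upwards [(lb_near hL ha).filter_mono nhdsWithin_le_nhds,
      (lb_near hA (hb x)).filter_mono nhdsWithin_le_nhds] with y l1 l2
    rw [h1 (a, b y) (a, b x) y ⟨l1, hb y⟩ ⟨l1, l2⟩, k1 (b y) (b x) y (hb y) l2]
    show _ = L.g a a y * A.g (b y) (b x) y * _ * _ * _
    rw [lb_self hL l1, one_mul, ← div_eq_mul_inv, ← div_eq_mul_inv,
      mul_div_mul_left _ _ (hA.ne_zero _ _ y (hb y) l2)]

end Vale.Agent.P280Z.Gz
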