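import Vale.Agent.P280Z.Gz.Defs

/-!
# P280Z, block Gz: base change to the projective line
-/

open scoped Manifold ContDiff Topology
open Set Filter
open Vale.Agent.P272.K Vale.Agent.P285.H281.FD Vale.Agent.P281Z
open Vale.Agent.P277Z (at_chart)
open Vale.Agent.P277.HD (pull)

noncomputable section

namespace Vale.Agent.P280Z.Gz

/-- the fibres of a base change -/
theorem emb_bc {n m n' m' d : ℕ} {V : Mf n} {W : Mf m} {V' : Mf n'} {W' : Mf m'} {f : V.X → W.X}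
    {g : W'.X → W.X} {f' : V'.X → W'.X} {g' : V'.X → V.X} (c : Cart f g f' g') {Z : Mf d}
    {i : Z.X → V'.X} {y : W'.X} (hi : Emb d n' i (f' ⁻¹' {y})) :
    Emb d n (fun z => g' (i z)) (f ⁻¹' {g y}) := by
  have k : ∀ z, g y = f (g' (i z)) := fun z => by rw [c.comm, hi.fib]
  refine ⟨c.hg'.comp hi.hol, fun z z' e => hi.inj ((c.uniq y _ (k z)).unique ⟨hi.fib z, rfl⟩
    ⟨hi.fib z', e.symm⟩), fun z => Imm.of_chart ((c.hg'.comp hi.hol).at z) (at_chart _)
      (at_chart _) ((injective_iff_map_eq_zero _).2 fun v hv => ?_),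
    Subset.antisymm (range_subset_iff.2 fun z => (k z).symm) fun x hx => ?_⟩
  · rw [df_comp (c.hg'.at _) (hi.hol.at z) (at_chart _) (at_chart _) (at_chart _)] at hv
    exact (injective_iff_map_eq_zero _).1 (hi.imm z _ _ (at_chart _) (at_chart _)) v
      (c.imm (i z) _ ((hi.fib_ker c.sf'.hol (c.sf'.sbm _) (at_chart _) (at_chart _)
        (at_chart _) _).2 ⟨v, rfl⟩) hv)
  · obtain ⟨w, ⟨h1, h2⟩, -⟩ := c.uniq y x (Eq.symm hx)
    obtain ⟨z, rfl⟩ := hi.ex (show w ∈ f' ⁻¹' {y} from h1)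
    exact ⟨z, h2⟩

theorem sq_of (fp : FP) (fibi : Gm.FIBI) (crv : CRV) (srf : SRF) : SQ := by
  intro T hT n X U C e g hg L s A B se ce va hA hP hB h0
  obtain ⟨S, f, q, c, -⟩ := fp 2 e g (by omega) se hg
  rw [hT.pu.bc c, map_mul, ← hT.c1.pull c.hg' B hB,
    srf T hT S C f L s _ c.sf' va (c.hg'.lb hB) fun Z i y hi => ?_, map_zero]
  have j := emb_bc c hi
  refine crv T hT Z _ (j.conn.2 (ce _)).toPreconnectedSpace (j.hol.lb hB)
    ⟨_, j.hol.lb hA, hT.kp Z _ (j.hol.lb hA) ?_⟩ ?_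
  · rw [hT.c1.pull j.hol A hA]
    exact hT.po.mono (hT.po.pull j.hol (hT.c1.pos U A hA hP)) fun z v hv =>
      (injective_iff_map_eq_zero _).1 (j.imm z _ _ (at_chart _) (at_chart _)) v hv
  · rw [← (fibi T hT e (g y) rfl se).2 Z _ j _ 0 (h0.trans (map_zero _).symm)]
    exact congrArg _ (hT.c1.pull j.hol B hB)

end Vale.Agent.P280Z.Gz
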