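import Vale.Agent.P280Z.Gz.Defs

/-!
# P280Z, block Gz: surfaces over the projective line
-/

open scoped Manifold ContDiff Topology
open Set Filter
open Vale.Agent.P272.K Vale.Agent.P285.H281.FD Vale.Agent.P281Z
open Vale.Agent.P277Z (at_chart)

noncomputable section

namespace Vale.Agent.P280Z.Gz

theorem Srf.cont {n : ℕ} {V : Mf n} {μ : V.X → ℝ} (h : SmoothFn (n := n) μ) : Continuous μ :=
  continuous_iff_continuousAt.2 fun x => by
    have he := at_chart (n := n) x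
    refine ((h _ x he).continuousAt.comp ((chartAt (Cm n) x).continuousAt he.2)).congr ?_
    filter_upwards [at_near he] with y hy using congrArg μ hy.left_inv

theorem srf_of : END → OPN → EXT → MORSE → MU → UP → SRF := by
  intro hE hO hX hM hU hP T hT S C f L s B hf hs hB h
  obtain ⟨μ, m1, m2, m3, m4, m5⟩ := hU C L s hs
  obtain ⟨n1, n2⟩ := hP S C f μ hf m1
  have key : ∀ t : ℝ, {z | μ z = t}.Subsingleton → Fr 2 B {x | μ (f x) = t} := fun t ht => by
    rcases ht.eq_empty_or_singleton with e | ⟨y, e⟩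
    · exact ⟨fun _ _ => 0, ⟨fun _ _ _ _ _ => contDiffAt_const, fun _ _ _ _ _ => (mul_zero _).symm⟩,
        fun x hx => absurd (e ▸ hx : f x ∈ (∅ : Set C.X)) (notMem_empty _)⟩
    · obtain ⟨Z, i, hi⟩ := fib_emb (y := y) (d := 1) rfl hf.hol fun u _ => hf.sbm u
      rw [show {x | μ (f x) = t} = f ⁻¹' {y} from congrArg (preimage f) e]
      exact hX S Z i _ B hB hi (h Z i y hi)
  obtain ⟨O, o1, o2, o3⟩ := hO S B _ hB (key 1 m4)
  obtain ⟨c, c1, c2⟩ : ∃ c < (1 : ℝ), ∀ x ∉ O, μ (f x) ≤ c := by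
    rcases Oᶜ.eq_empty_or_nonempty with e | e
    · exact ⟨0, zero_lt_one, fun x hx => absurd (e ▸ hx : x ∈ (∅ : Set S.X)) (notMem_empty _)⟩
    · obtain ⟨x, x1, x2⟩ := o1.isClosed_compl.isCompact.exists_isMaxOn e (Srf.cont n1).continuousOn
      exact ⟨_, (m2 _).2.lt_of_ne fun k => x1 (o2 k), fun y hy => x2 hy⟩
  refine hE T hT S B _ O hB (hM S B _ 0 c hB n1
    (fun x h1 h2 => n2 x (m5 _ h1 (h2.trans_lt c1))) ?_) o3 fun x => (em (x ∈ O)).symm.imp_left (c2 x)
  rw [show {x | μ (f x) ≤ 0} = {x | μ (f x) = 0} from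
    Set.ext fun x => ⟨fun k => le_antisymm k (m2 _).1, le_of_eq⟩]
  exact key 0 m3

end Vale.Agent.P280Z.Gz
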