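import Vale.Agent.P280Z.Gz.Top
import Vale.Agent.P280Z.Gz.Sq
import Vale.Agent.P280Z.Gz.Srf
import Vale.Agent.P280Z.Gz.Morse
import Vale.Agent.P280Z.Gz.Move
import Vale.Agent.P280Z.Gz.Ext
import Vale.Agent.P280Z.Gz.End
import Vale.Agent.P280Z.Gz.Mu
import Vale.Agent.P280Z.Gz.Od
import Vale.Agent.P280Z.Gz.Pf
import Vale.Agent.P280Z.Gz.Rem
import Vale.Agent.P280Z.Gz.Crv

/-!
# P280Z, block Gz: the assembly
-/

open Vale.Agent.P281Z
open Vale.Agent.P280Z.Mp (Eqs)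
open Vale.Agent.P272.K

namespace Vale.Agent.P280Z.Gz

theorem crv : CRV :=
  crv_of Ld.ld (cut_of od) (quo_of od) (pfa_of od (pf1_of od)) (rem_of od)

theorem srf : SRF := srf_of end_ opn ext (morse_of opn move) mu up

theorem sq : SQ := sq_of fp Gm.fibi crv srf

theorem plane {T : CT} (t : Rh.Th T) {n N r d D k δ : ℕ} {V : Mf n} {P : Eqs r N}
    {pt : Cm N → V.X} {F : Mp.Fam V P pt d D k} {E : VB F.U.X} (s : Cv.Sit T δ F 1 E)
    (hn : 1 ≤ n) : (Cv.nsF T F E).Plane := plane_of sq t s hn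

end Vale.Agent.P280Z.Gz
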