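import Vale.Agent.P280Z.Gm.Defs
import Vale.Agent.P281Z.Mf.Fib

/-!
# P280Z, block Gz: families of curves over the projective line (definitions, rows)
-/

open scoped Manifold ContDiff Topology
open Set Filter
open Vale.Agent.P272.K Vale.Agent.P285.H281.FD Vale.Agent.P281Z
open Vale.Agent.P277Z (Hol)
open Vale.Agent.P277Z.Slc (dd)
open Vale.Agent.P277.HD (pull)
open Vale.Agent.P280Z.Ld (Va)

noncomputable section

namespace Vale.Agent.P280Z.Gz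

section
variable (n : ℕ) {X : Type} [TopologicalSpace X] [ChartedSpace (Cm n) X]

/-- smooth sections -/
structure Ss (L : Bd X) (s : L.ι → X → ℂ) : Prop where
  sm : ∀ a (e : Chart n X) x, At e x → x ∈ L.U a → ContDiffAt ℝ ∞ (fun z => s a (e.symm z)) (e x)
  chg : ∀ a b x, x ∈ L.U a → x ∈ L.U b → s a x = L.g a b x * s b x

/-- there is a smooth section without zeros on `A` -/
def Fr (L : Bd X) (A : Set X) : Prop := ∃ s, Ss n L s ∧ ∀ x ∈ A, NZ L s x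

/-- `x` is a regular point of `μ` -/
def Reg (μ : X → ℝ) (x : X) : Prop :=
  ∃ e : Chart n X, At e x ∧ fderiv ℝ (fun z => μ (e.symm z)) (e x) ≠ 0

end

section
variable {X : Type} [TopologicalSpace X] [ChartedSpace (Cm 1) X]

/-- `f` has the order `m` at `x`, up to a smooth unit -/
def Od (f : X → ℂ) (x : X) (m : ℤ) : Prop := ∀ e : Chart 1 X, At e x → ∃ u : X → ℂ,
  ContDiffAt ℝ ∞ (fun z => u (e.symm z)) (e x) ∧ u x ≠ 0 ∧
    ∀ᶠ y in 𝓝[≠] x, f y = u y * (e y 0 - e x 0) ^ m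

/-- `L` has a smooth section with the divisor `D` -/
def Sz (L : Bd X) (D : X → ℤ) : Prop := ∃ s : L.ι → X → ℂ,
  (∀ a b x, x ∈ L.U a → x ∈ L.U b → s a x = L.g a b x * s b x) ∧
    ∀ a x, x ∈ L.U a → Od (s a) x (D x)

/-- there is a smooth function with the divisor `D` -/
def Pf (D : X → ℤ) : Prop := ∃ f : X → ℂ, ∀ x, Od f x (D x)

end

/-- row END: two smooth sections without common zero -/
def END : Prop := ∀ T : CT, T.OK → ∀ {n : ℕ} (V : Mf n) (L : Bd V.X) (A B : Set V.X), IsLB n L →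
  Fr n L A → Fr n L B → (∀ x, x ∈ A ∨ x ∈ B) → T.c1 V L * T.c1 V L = 0

/-- row OPN: the condition is open -/
def OPN : Prop := ∀ {n : ℕ} (V : Mf n) (L : Bd V.X) (A : Set V.X), IsLB n L → Fr n L A →
  ∃ O, IsOpen O ∧ A ⊆ O ∧ Fr n L O

/-- row EXT: extension from a submanifold -/
def EXT : Prop := ∀ {n k : ℕ} (V : Mf n) (Z : Mf k) (i : Z.X → V.X) (S : Set V.X) (L : Bd V.X),
  IsLB n L → Emb k n i S → Fr k (pull i L) univ → Fr n L S

/-- row MOVE: one local move -/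
def MOVE : Prop := ∀ {n : ℕ} (V : Mf n) (L : Bd V.X) (μ : V.X → ℝ) (x : V.X), IsLB n L →
  SmoothFn (n := n) μ → Reg n μ x → ∃ φ : V.X → V.X, Continuous φ ∧
    (∀ y, φ y = y ∨ μ (φ y) < μ y) ∧ (∀ᶠ y in 𝓝 x, μ (φ y) < μ y) ∧
    ∀ A, Fr n L (φ '' A) → Fr n L A

/-- row MORSE: no critical values -/
def MORSE : Prop := ∀ {n : ℕ} (V : Mf n) (L : Bd V.X) (μ : V.X → ℝ) (a c : ℝ), IsLB n L →
  SmoothFn (n := n) μ → (∀ x, a < μ x → μ x ≤ c → Reg n μ x) → Fr n L {x | μ x ≤ a} →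
  Fr n L {x | μ x ≤ c}

/-- row MU: the height function on the projective line -/
def MU : Prop := ∀ (Z : Mf 1) (L : Bd Z.X) (s : Fin 2 → L.ι → Z.X → ℂ), Va 1 L s →
  ∃ μ : Z.X → ℝ, SmoothFn (n := 1) μ ∧ (∀ z, 0 ≤ μ z ∧ μ z ≤ 1) ∧ {z | μ z = 0}.Subsingleton ∧
    {z | μ z = 1}.Subsingleton ∧ ∀ z, 0 < μ z → μ z < 1 → Reg 1 μ z

/-- row UP: pull back by a submersion -/
def UP : Prop := ∀ {n k : ℕ} (V : Mf n) (Z : Mf k) (f : V.X → Z.X) (μ : Z.X → ℝ), Sub n k f →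
  SmoothFn (n := k) μ → SmoothFn (n := n) (fun x => μ (f x)) ∧
    ∀ x, Reg k μ (f x) → Reg n (fun x => μ (f x)) x

/-- row OD: the rules for orders -/
structure OD : Prop where
  cng : ∀ {Z : Mf 1} {f g : Z.X → ℂ} {x m}, Od f x m → (∀ᶠ y in 𝓝[≠] x, f y = g y) → Od g x m
  mul : ∀ {Z : Mf 1} {f g : Z.X → ℂ} {x m l}, Od f x m → Od g x l →
    Od (fun y => f y * g y) x (m + l)
  inv : ∀ {Z : Mf 1} {f : Z.X → ℂ} {x m}, Od f x m → Od (fun y => (f y)⁻¹) x (-m)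
  unit : ∀ {Z : Mf 1} {f : Z.X → ℂ} {x} {e : Chart 1 Z.X}, At e x →
    ContDiffAt ℝ ∞ (fun z => f (e.symm z)) (e x) → f x ≠ 0 → Od f x 0
  one : ∀ {Z : Mf 1} {f : Z.X → ℂ} {x} {e : Chart 1 Z.X}, At e x → Hol 1 f x → f x = 0 →
    dd f e x ≠ 0 → Od f x 1
  nz : ∀ {Z : Mf 1} {f : Z.X → ℂ} {x m}, Od f x m → ∀ᶠ y in 𝓝[≠] x, f y ≠ 0
  nb : ∀ {Z : Mf 1} (x : Z.X), (𝓝[≠] x).NeBot

/-- row PF1: a point moves a little -/
def PF1 : Prop := ∀ (Z : Mf 1) [DecidableEq Z.X] (x : Z.X), ∀ᶠ y in 𝓝 x,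
  Pf (Pi.single y 1 - Pi.single x 1 : Z.X → ℤ)

/-- row PFA: divisors of degree zero -/
def PFA : Prop := ∀ (Z : Mf 1) [DecidableEq Z.X] (α : Type) [Fintype α] (x y : α → Z.X),
  PreconnectedSpace Z.X → Pf (∑ j, Pi.single (y j) 1 - ∑ j, Pi.single (x j) 1 : Z.X → ℤ)

/-- row REM: removable singularities -/
def REM : Prop := ∀ (Z : Mf 1) (L : Bd Z.X), IsLB 1 L → Sz L 0 → Fr 1 L univ

/-- row CUT: holomorphic sections with simple zeros -/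
def CUT : Prop := ∀ (Z : Mf 1) [DecidableEq Z.X] (O : Mf 0) [Fintype O.X] (L : Bd Z.X)
  (s : L.ι → Z.X → ℂ) (i : O.X → Z.X), Cut L s i → Sz L (∑ j, Pi.single (i j) 1 : Z.X → ℤ)

/-- row QUO: quotients -/
def QUO : Prop := ∀ (Z : Mf 1) (L A : Bd Z.X) (D D' D'' : Z.X → ℤ), IsLB 1 L → IsLB 1 A →
  Sz (L.mul A) D → Sz A D' → Pf D'' → Sz L (D - D' + D'')

/-- row CRV: line bundles of degree zero on a curve -/
def CRV : Prop := ∀ T : CT, T.OK → ∀ (Z : Mf 1) (L : Bd Z.X), PreconnectedSpace Z.X → IsLB 1 L →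
  (∃ A : Bd Z.X, IsLB 1 A ∧ Pos 1 A) → T.int Z (T.c1 Z L) = 0 → Fr 1 L univ

/-- row SRF: surfaces over the projective line -/
def SRF : Prop := ∀ T : CT, T.OK → ∀ (S : Mf 2) (C : Mf 1) (f : S.X → C.X) (L : Bd C.X)
  (s : Fin 2 → L.ι → C.X → ℂ) (B : Bd S.X), Sub 2 1 f → Va 1 L s → IsLB 2 B →
  (∀ (Z : Mf 1) (i : Z.X → S.X) (y : C.X), Emb 1 2 i (f ⁻¹' {y}) → Fr 1 (pull i B) univ) →
  T.c1 S B * T.c1 S B = 0

/-- **the output of the block** -/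
def SQ : Prop := ∀ T : CT, T.OK → ∀ {n : ℕ} (X : Mf n) (U : Mf (n + 1)) (C : Mf 1) (e : U.X → X.X)
  (g : C.X → X.X) (hg : HolM 1 n g) (L : Bd C.X) (s : Fin 2 → L.ι → C.X → ℂ) (A B : Bd U.X),
  Sub (n + 1) n e → (∀ x, IsConnected (e ⁻¹' {x})) → Va 1 L s → IsLB (n + 1) A → Pos (n + 1) A →
  IsLB (n + 1) B → T.push e (T.c1 U B) = 0 → T.pull hg (T.push e (T.c1 U B * T.c1 U B)) = 0

end Vale.Agent.P280Z.Gz
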