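import Vale.Agent.P280Z.Al.Defs

/-!
# P280Z, block Gz: the second Betti number of the universal curve (the statement)
-/

namespace Vale.Agent.P280Z.NS
variable {A B : Type} [CommRing A] [Algebra ℝ A] [CommRing B] [Algebra ℝ B] (S : NS A B)

/-- the relative canonical class lies in the plane of `τ` and `η` -/
def Plane : Prop := ∃ x y : ℝ, S.pE 1 = x • (-S.τ) + y • S.hh

end Vale.Agent.P280Z.NS
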