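import Vale.Agent.P280Z.Gz.Defs
import Vale.Agent.P280Z.Gz.PlD
import Vale.Agent.P280Z.G2.Wl
import Vale.Agent.P280Z.R1.Xt
import Vale.Agent.P280Z.R1.Kob

/-!
# P280Z, block Gz: the second Betti number of the universal curve
-/

open scoped Manifold ContDiff Topology
open Set Filter
open Vale.Agent.P272.K Vale.Agent.P285.H281.FD Vale.Agent.P281Z
open Vale.Agent.P277Z (at_chart)
open Vale.Agent.P280Z.Mp (Eqs)
open Vale.Agent.P280Z.Ld (Va)
open Vale.Agent.P280Z.Ld.ConnX (top0)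
open Vale.Agent.P280Z.Rh (cX pull_inj)
open Vale.Agent.P280Z.R1.XtH

noncomputable section

namespace Vale.Agent.P280Z.Gz

/-- a curve of genus zero with a line bundle of degree one -/
theorem rat {T : CT} (hT : T.OK) (hR : Gm.HRR T) {C : Mf 1} (hc : ConnectedSpace C.X) (hk : C.Kah)
    {L : Bd C.X} (hL : IsLB 1 L) (h1 : T.int C (T.c1 C L) = 1) (h2 : T.int C (cX T C) = 2) :
    ∃ s : Fin 2 → L.ι → C.X → ℂ, Va 1 L s := by
  obtain ⟨w, hw⟩ := (hT.po.kah C).1 hk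
  obtain ⟨z⟩ := hc.toNonempty
  have v := Ma.kc_vol hT hw z
  rw [pow_one] at v
  have dL : T.pr C 1 (T.c1 C L) = _ := hT.c1.deg C L
  have e1 : T.c1 C L = (T.int C w)⁻¹ • w := sub_eq_zero.1 (top0 hT hk inferInstance
    (by rw [CT.Dg, map_sub, map_smul, dL, hT.po.deg hw])
    (by rw [map_sub, map_smul, h1, smul_eq_mul, inv_mul_cancel₀ v.ne', sub_self]))
  have hK : T.Kc C (T.c1 C L) := e1 ▸ hT.po.smul _ (inv_pos.2 v) hw
  have e2 : T.c1 C (Bd.can 1 C.X) = (-2 : ℝ) • T.c1 C L := sub_eq_zero.1 (top0 hT hk inferInstance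
    (by rw [CT.Dg, map_sub, map_smul, dL, hT.c1.deg])
    (by rw [map_sub, map_smul, h1, ← neg_neg (T.c1 C (Bd.can 1 C.X)), ← hT.ch.tan, map_neg, h2]
        norm_num))
  have h : En.MD (n := 0) T C L ((2 : ℝ) • T.c1 C L) 1 :=
    ⟨inferInstance, hL, R1.kob1 T hT hR C L hc hL hK (e2.trans (by push_cast; module))
      ((congrArg _ (pow_one _)).trans h1), hK,
      hT.po.mono (hT.po.smul _ two_pos hK) fun _ => le_top, e2.trans (by push_cast; module),
      by rw [pow_zero, one_mul, map_smul, h1]; norm_num,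
      (congrArg _ (pow_one _)).trans (h1.trans Nat.cast_one.symm)⟩
  obtain ⟨b⟩ := h.basis hT
  exact ⟨fun l => (b l).1, (h.emb hT b).2.1⟩

theorem plane_of (sq : SQ) {T : CT} (t : Rh.Th T) {n N r d D k δ : ℕ} {V : Mf n} {P : Eqs r N}
    {pt : Cm N → V.X} {F : Mp.Fam V P pt d D k} {E : VB F.U.X} (s : Cv.Sit T δ F 1 E)
    (hn : 1 ≤ n) : (Cv.nsF T F E).Plane := by
  obtain rfl : k = n := by have := s.dim; omega
  have hT := s.ok
  have fs := En.fs_of s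
  have wl := G2.wl s t.hrr hn
  have xt := R1.xt T t F E s
  obtain ⟨l1, l2, -⟩ := Ma.lbs F s.hyp
  obtain ⟨c, hc⟩ := Ma.up F s.hyp (Ma.kn F s.hyp)
  have cK := Ma.conn_K F s.cU
  obtain ⟨y⟩ := cK.toNonempty
  obtain ⟨⟨C, i, hi⟩, fi⟩ := Gm.fibi T hT F.p y rfl fs.sp
  obtain ⟨E', hE'⟩ := Ma.rel.ex F.p 1 fs.sp rfl
  have r1 := (Ma.rel.ps T hT F.e_hol s.rel).2.2 1
  have r2 := (Ma.rel.ps T hT F.p_hol hE').2.2 1
  have r3 := (En.fb hT fs.sp rfl hE' hi).1 0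
  have ns := s.ns
  set S := Cv.nsF T F E
  have val : ∀ a (c : ℝ), S.T a = algebraMap ℝ _ c → T.int C (T.pull hi.hol a) = c := fun a c h =>
    fi C i hi a c (sub_eq_zero.1 (pull_inj hT fs.sp rfl (Ma.p_onto F) cK s.kU (by
      rw [map_sub, AlgHom.commutes]
      exact sub_eq_zero.2 h)))
  have cτ : Lc T F.U S.τ := ⟨_, l2, rfl⟩
  have cE : Lc T F.U (S.pE 1) := (congrArg _ (add_neg_eq_iff_eq_add.2 r1)).mp
    ((lc_cX hT F.U).add hT (((lc_cX hT V).pull hT F.e_hol).neg hT))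
  have s1 := ns.ses 1
  rw [pow_one] at s1
  have r4 : T.ps F.U E' 1 = S.τ := add_right_cancel (r2.symm.trans (r1.trans s1))
  have t1 : S.T (-S.pE 1) = algebraMap ℝ _ 1 := by
    have := congrArg S.T s1
    rw [map_add, map_add, ns.c1, map_smul, map_smul, ns.Tη, ns.Tτ, ns.TK] at this
    rw [map_neg, eq_sub_of_add_eq this, map_one, ← Algebra.algebraMap_eq_smul_one, map_add,
      map_natCast, map_ofNat]
    norm_num
  obtain ⟨L, hL, eL⟩ := (cE.neg hT).pull hT hi.hol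
  obtain ⟨σ, va⟩ := rat hT t.hrr (hi.conn.2 (Cv.CmpH.fib F s.hyp.pos y)) (hi.kah s.kU) hL
    (eL ▸ val _ 1 t1) (by
      rw [cX, r3, zero_add, r4]
      exact val _ 2 (ns.Tτ.trans (map_ofNat _ 2).symm))
  obtain ⟨z, hz⟩ := xt.intF 1 0 rfl
  obtain ⟨w, hw⟩ := xt.intF 0 1 rfl
  rw [pow_one, pow_zero, mul_one] at hz
  rw [pow_one, pow_zero, one_mul] at hw
  have z0 : (z : ℝ) ≠ 0 := fun h => by
    obtain ⟨D, hD, eD⟩ := ns.D
    have := congrArg (fun a => S.GX.int (a * S.η ^ k)) eD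
    simp only [pow_one, map_neg, hz, Int.cast_eq_zero.1 h, Int.cast_zero, neg_zero, zero_mul,
      map_zero, ← Algebra.smul_def, map_smul, smul_eq_mul] at this
    exact (mul_pos hD ns.vol).ne this
  obtain ⟨B, hB, eB⟩ := (cτ.smul hT (-w)).add hT (cE.smul hT z)
  have b0 : S.el (T.c1 F.U B) = 0 := by
    rw [eB, map_add, map_smul, map_smul, hz, hw, Algebra.smul_def, Algebra.smul_def, map_intCast,
      map_intCast]
    push_cast
    ring
  have b2 := sq T hT V F.U C F.e _ (F.e_hol.comp hi.hol) L σ _ B fs.se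
    (Gm.cov T hT t.hrr _ _ _ fs.se fs.cU fs.cX (fs.fa hT)) va
    (lb_mul l2 (F.p_hol.lb (lb_pow l1 c))) hc hB b0
  obtain ⟨x, hx⟩ := ns.b2 (S.el (T.c1 F.U B * T.c1 F.U B)) ((ns.el_pr 1 _).trans
    (congrArg _ (hT.rg.dg_mul _ 1 1 _ _ (hT.c1.deg _ B) (hT.c1.deg _ B))))
  have x0 : x = 0 := by
    have := congrArg (T.int C) ((congrArg _ hx).symm.trans b2)
    have v : T.int C (T.pull hi.hol (T.pull F.e_hol S.η)) = 1 :=
      val S.hh 1 (ns.Tη.trans (map_one _).symm)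
    rwa [map_smul, map_smul, hT.rg.pull_comp hi.hol F.e_hol _ fun _ => rfl, v, smul_eq_mul, mul_one,
      map_zero] at this
  obtain ⟨a, ha⟩ := (wl 0 ((-w : ℤ) : ℝ) z _ (by rw [eB, zero_smul, zero_add]) b0).2
    (by rw [hx, x0, zero_smul])
  refine ⟨((-w : ℤ) : ℝ) / z, a / z, ?_⟩
  rw [div_eq_inv_mul a, mul_smul, ← ha, eB, smul_add, smul_smul, smul_smul, inv_mul_cancel₀ z0,
    one_smul, div_eq_inv_mul, smul_neg, neg_add_cancel_left]

end Vale.Agent.P280Z.Gz
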